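import Crest.Agent.R231.G.Var

/-! R231, block G: the ambient cylinder metric of a Riemannian metric on the sphere. -/

set_option autoImplicit false
set_option maxSynthPendingDepth 3
open Set Filter Topology Bundle
open scoped ContDiff RealInnerProductSpace Manifold

noncomputable section
namespace Crest.Agent.R231.Geo

variable {n : ℕ}

instance instFactE : Fact (Module.finrank ℝ (E n) = n + 1) := ⟨finrank_euclideanSpace_fin⟩

theorem coe_smooth : ContMDiff (𝓡 n) 𝓘(ℝ, E n) ∞ ((↑) : M n → E n) := contMDiff_coe_sphere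

/-- radial projection -/
def nrm (x : E n) : M n := toM (‖x‖⁻¹ • x)

theorem nrm_coe {x : E n} (hx : x ≠ 0) : (nrm x : E n) = ‖x‖⁻¹ • x := toM_coe (norm_smul_inv_norm hx)

theorem nrm_val (x : M n) : nrm (x : E n) = x := by simp [nrm]

theorem nrm_smul {a : ℝ} (ha : 0 < a) (x : E n) : nrm (a • x) = nrm x := by
  rw [nrm, nrm, norm_smul, Real.norm_of_nonneg ha.le, smul_smul, mul_inv, mul_right_comm, inv_mul_cancel₀ ha.ne',
    one_mul]

theorem nrm_smooth {x : E n} (hx : x ≠ 0) : ContMDiffAt 𝓘(ℝ, E n) (𝓡 n) ∞ nrm x := by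
  let U : TopologicalSpace.Opens (E n) := ⟨{0}ᶜ, isOpen_compl_singleton⟩
  have h1 : ContMDiff 𝓘(ℝ, E n) 𝓘(ℝ, E n) ∞ fun y : U => ‖(y : E n)‖⁻¹ • (y : E n) := fun y =>
    (contMDiffAt_subtype_iff (f := fun y : E n => ‖y‖⁻¹ • y)).2 ((((contDiffAt_norm ℝ y.2).inv
      (norm_ne_zero_iff.2 y.2)).smul contDiffAt_id).contMDiffAt)
  have h2 := h1.codRestrict_sphere (n := n) fun y => mem_sphere_zero_iff_norm.2 (norm_smul_inv_norm y.2)
  refine (contMDiffAt_subtype_iff (U := U) (x := ⟨x, hx⟩)).1 ?_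
  exact (h2 ⟨x, hx⟩).congr_of_eventuallyEq (Eventually.of_forall fun y => Subtype.ext (nrm_coe y.2))

/-- the differential of the radial projection -/
def dn (x : E n) : E n →L[ℝ] EuclideanSpace ℝ (Fin n) := mfderiv 𝓘(ℝ, E n) (𝓡 n) nrm x

theorem nrm_has {x : E n} (hx : x ≠ 0) : HasMFDerivAt 𝓘(ℝ, E n) (𝓡 n) nrm x (dn x) :=
  ((nrm_smooth hx).mdifferentiableAt (by simp)).hasMFDerivAt

theorem dn_curve {γ : ℝ → E n} {v : E n} {t : ℝ} (h : HasDerivAt γ v t) (h0 : γ t ≠ 0) :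
    mfderiv 𝓘(ℝ, ℝ) (𝓡 n) (fun u => nrm (γ u)) t (1 : ℝ) = dn (γ t) v := by
  have := ((nrm_has h0).comp t h.hasFDerivAt.hasMFDerivAt).mfderiv
  exact (congrArg (fun A : ℝ →L[ℝ] EuclideanSpace ℝ (Fin n) => A 1) this).trans
    (congrArg (dn (γ t)) (one_smul ℝ v))

theorem dn_self {x : E n} (hx : x ≠ 0) : dn x x = 0 := by
  have h1 := dn_curve ((hasDerivAt_id' (1 : ℝ)).smul_const x) (by simpa using hx)
  have h2 : (fun u : ℝ => nrm (u • x)) =ᶠ[𝓝 1] fun _ => nrm ((1 : ℝ) • x) :=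
    (lt_mem_nhds one_pos).mono fun u hu => (nrm_smul hu x).trans (nrm_smul one_pos x).symm
  have h4 : dn ((1 : ℝ) • x) ((1 : ℝ) • x) = 0 := h1.symm.trans (congrArg
    (fun A : ℝ →L[ℝ] EuclideanSpace ℝ (Fin n) => A 1) (((hasMFDerivAt_const _ _).congr_of_eventuallyEq h2).mfderiv))
  rwa [one_smul] at h4

theorem dn_smul {a : ℝ} (ha : 0 < a) {x : E n} (hx : x ≠ 0) (v : E n) : dn (a • x) (a • v) = dn x v := by
  have h1 := dn_curve ((g_line x v).const_smul a) (by simpa [ha.ne'] using hx)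
  have h2 := dn_curve (g_line x v) (by simpa using hx)
  have h3 : dn (a • (x + (0 : ℝ) • v)) (a • v) = dn (x + (0 : ℝ) • v) v :=
    h1.symm.trans ((congrArg (fun f : ℝ → M n => (mfderiv 𝓘(ℝ, ℝ) (𝓡 n) f 0 (1 : ℝ) : EuclideanSpace ℝ (Fin n)))
      (funext fun u => nrm_smul ha _)).trans h2)
  rwa [zero_smul, add_zero] at h3

theorem dn_inj {x v : E n} (hx : x ≠ 0) (h1 : dn x v = 0) (h2 : ⟪x, v⟫ = 0) : v = 0 := by
  have e0 : x + (0 : ℝ) • v ≠ 0 := by simpa using hx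
  have h3 := ((((coe_smooth _).mdifferentiableAt (by simp)).hasMFDerivAt.comp _
    (nrm_has e0)).hasFDerivAt).comp_hasDerivAt 0 (g_line x v)
  have h4 := (((contDiffAt_norm ℝ e0).differentiableAt (n := 1) (by simp)).hasFDerivAt.comp_hasDerivAt 0
    (g_line x v)).smul h3
  have h5 := (g_line x v).unique (h4.congr_of_eventuallyEq (((g_line x v).continuousAt.eventually_ne e0).mono
    fun s hs => by simp [nrm_coe hs, smul_smul, hs]))
  generalize fderiv ℝ norm _ v = c at h5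
  simp only [zero_smul, add_zero, Function.comp, nrm_coe hx, smul_smul] at h5
  have h6 : v = (c * ‖x‖⁻¹) • x := by
    refine h5.trans ((congrArg (· + _) ?_).trans (zero_add _))
    exact smul_eq_zero_of_right _ ((congrArg (mfderiv (𝓡 n) 𝓘(ℝ, E n) Subtype.val (nrm (x + (0 : ℝ) • v))) h1).trans (map_zero _))
  rw [h6, inner_smul_right, mul_eq_zero, inner_self_eq_zero] at h2
  rw [h6, h2.resolve_right hx, zero_smul]

variable (g : ContMDiffRiemannianMetric (𝓡 n) ∞ (EuclideanSpace ℝ (Fin n)) (TangentSpace (𝓡 n) : M n → Type))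

/-- the metric in the model space -/
def gi (x : M n) : EuclideanSpace ℝ (Fin n) →L[ℝ] EuclideanSpace ℝ (Fin n) →L[ℝ] ℝ := g.inner x

theorem gi_symm (x : M n) (v w : EuclideanSpace ℝ (Fin n)) : gi g x v w = gi g x w v := g.symm x v w

theorem dn_smooth (u : E n) : ContMDiffOn 𝓘(ℝ, E n) (𝓡 n).tangent ∞
    (fun y => (TotalSpace.mk' (EuclideanSpace ℝ (Fin n)) (nrm y) (dn y u) : TangentBundle (𝓡 n) (M n))) {0}ᶜ := by
  have h0 : ContMDiffOn 𝓘(ℝ, E n) (𝓡 n) ∞ nrm {0}ᶜ := fun x hx => (nrm_smooth hx).contMDiffWithinAt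
  have h1 := h0.contMDiffOn_tangentMapWithin (m := ∞) le_rfl isOpen_compl_singleton.uniqueMDiffOn
  have h2 : ContMDiff 𝓘(ℝ, E n) 𝓘(ℝ, E n).tangent ∞
      (fun y : E n => (TotalSpace.mk' (E n) y u : TangentBundle 𝓘(ℝ, E n) (E n))) :=
    (contMDiff_vectorSpace_iff_contDiff (V := fun _ => u)).2 contDiff_const
  refine (h1.comp h2.contMDiffOn fun y hy => hy).congr fun y hy => ?_
  simp only [Function.comp, tangentMapWithin]
  rw [mfderivWithin_of_isOpen isOpen_compl_singleton hy]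
  rfl

theorem gn_smooth (u v : E n) : ContDiffOn ℝ ∞ (fun y => gi g (nrm y) (dn y u) (dn y v)) {0}ᶜ := by
  have : ContMDiffOn 𝓘(ℝ, E n) ((𝓡 n).prod 𝓘(ℝ)) ∞
      (fun y => TotalSpace.mk' ℝ (E := Bundle.Trivial (M n) ℝ) (nrm y) (g.inner (nrm y) (dn y u) (dn y v))) {0}ᶜ :=
    ContMDiffOn.clm_bundle_apply₂ (F₁ := EuclideanSpace ℝ (Fin n)) (F₂ := EuclideanSpace ℝ (Fin n))
      (g.contMDiff.comp_contMDiffOn fun x hx => (nrm_smooth hx).contMDiffWithinAt) (dn_smooth u) (dn_smooth v)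
  rw [← contMDiffOn_iff_contDiffOn]
  intro y hy
  have h := this y hy
  rw [contMDiffWithinAt_totalSpace] at h
  exact h.2

theorem g_bounds {G : E n → E n →L[ℝ] E n →L[ℝ] ℝ} (hG : Continuous G) (hp : ∀ x v, v ≠ 0 → 0 < G x v v)
    {C : Set (E n)} (hC : IsCompact C) (h : ∀ x ∉ C, ∀ v, G x v v = ‖v‖ ^ 2) :
    ∃ K, 1 ≤ K ∧ (∀ x v, ‖v‖ ^ 2 ≤ K ^ 2 * G x v v) ∧ ∀ x v, G x v v ≤ K ^ 2 * ‖v‖ ^ 2 := by
  have hc : Continuous fun p : E n × E n => G p.1 p.2 p.2 := by fun_prop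
  have hK := hC.prod (isCompact_sphere (0 : E n) 1)
  obtain ⟨c, hc0, h1⟩ := hK.exists_forall_le' hc.continuousOn (a := 0) fun p hq =>
    hp _ _ (ne_zero_of_mem_unit_sphere ⟨_, hq.2⟩)
  obtain ⟨B, h2⟩ := hK.exists_bound_of_continuousOn hc.continuousOn
  obtain ⟨K, hK1, hK2, hK3⟩ : ∃ K : ℝ, 1 ≤ K ∧ c⁻¹ ≤ K ^ 2 ∧ B ≤ K ^ 2 := by
    have := inv_pos.2 hc0
    exact ⟨1 + c⁻¹ + |B|, by linarith [abs_nonneg B], by nlinarith [abs_nonneg B], by
      nlinarith [abs_nonneg B, le_abs_self B]⟩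
  have h3 : ∀ x v, ‖v‖ ^ 2 ≤ K ^ 2 * G x v v ∧ G x v v ≤ K ^ 2 * ‖v‖ ^ 2 := fun x v => by
    by_cases hx : x ∈ C
    · rcases eq_or_ne v 0 with rfl | hv
      · simp
      have e : G x v v = G x (‖v‖⁻¹ • v) (‖v‖⁻¹ • v) * ‖v‖ ^ 2 := by
        have := norm_ne_zero_iff.2 hv
        simp only [map_smul, smul_apply, smul_eq_mul]
        field_simp
      have hm : (x, ‖v‖⁻¹ • v) ∈ C ×ˢ Metric.sphere (0 : E n) 1 :=
        ⟨hx, mem_sphere_zero_iff_norm.2 (norm_smul_inv_norm hv)⟩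
      rw [e, ← mul_assoc]
      refine ⟨le_mul_of_one_le_left (sq_nonneg _) ?_, mul_le_mul_of_nonneg_right
        (((le_abs_self _).trans (h2 _ hm)).trans hK3) (sq_nonneg _)⟩
      exact (inv_mul_cancel₀ hc0.ne').ge.trans (mul_le_mul hK2 (h1 _ hm) hc0.le (sq_nonneg _))
    · rw [h x hx, and_self]
      exact le_mul_of_one_le_left (sq_nonneg _) (one_le_pow₀ hK1)
  exact ⟨K, hK1, fun x v => (h3 x v).1, fun x v => (h3 x v).2⟩

theorem exists_met : ∃ m : Met n, ∀ (γ : ℝ → M n) (v : E n) (t : ℝ), HasDerivAt (fun u => (γ u : E n)) v t →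
    g.inner (γ t) (mfderiv 𝓘(ℝ, ℝ) (𝓡 n) γ t (1 : ℝ)) (mfderiv 𝓘(ℝ, ℝ) (𝓡 n) γ t (1 : ℝ)) = m.G (γ t) v v := by
  obtain ⟨Gm, hGm⟩ : ∃ Gm : E n → E n →L[ℝ] E n →L[ℝ] ℝ, ∀ x v w,
      Gm x v w = gi g (nrm x) (dn x v) (dn x w) + (‖x‖ ^ 4)⁻¹ * (⟪x, v⟫ * ⟪x, w⟫) :=
    ⟨fun x => (gi g (nrm x)).bilinearComp (dn x) (dn x) + (‖x‖ ^ 4)⁻¹ • (innerSL ℝ x).smulRight (innerSL ℝ x),
      fun _ _ _ => rfl⟩
  have hs : ContDiffOn ℝ ∞ Gm {0}ᶜ := contDiffOn_clm_apply.2 fun v => contDiffOn_clm_apply.2 fun w => by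
    simp only [hGm]
    exact (gn_smooth g v w).add (ContDiffOn.mul (fun x hx => (((contDiffAt_norm ℝ hx).pow 4).inv
      (pow_ne_zero 4 (norm_ne_zero_iff.2 hx))).contDiffWithinAt)
      ((contDiff_id.inner ℝ contDiff_const).mul (contDiff_id.inner ℝ contDiff_const)).contDiffOn)
  obtain ⟨χ, h1, h2, h3, h4, O, hO, h5, -, h6⟩ := R203.exists_cutoff (K := Metric.closedBall (0 : E n) 2 \
    Metric.ball 0 (1 / 2)) isOpen_compl_singleton ((isCompact_closedBall _ _).diff Metric.isOpen_ball)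
    (fun x hx (h : x = 0) => hx.2 (by rw [h]; simp))
  have hO' : ∀ x : E n, 1 / 2 < ‖x‖ → ‖x‖ < 2 → x ∈ O := fun x a b =>
    h5 ⟨mem_closedBall_zero_iff.2 b.le, fun h => (mem_ball_zero_iff.1 h).not_gt a⟩
  obtain ⟨G, hG, hGs⟩ : ∃ G : E n → E n →L[ℝ] E n →L[ℝ] ℝ, (∀ x v w, G x v w = χ x * Gm x v w + (1 - χ x) * ⟪v, w⟫) ∧
      ContDiff ℝ ∞ G := ⟨fun x => χ x • Gm x + (1 - χ x) • (show E n →L[ℝ] E n →L[ℝ] ℝ from innerSL ℝ), fun _ _ _ => rfl,
    (R203.contDiff_cutoff_smul isOpen_compl_singleton h1 h3 hs).add ((contDiff_const.sub h1).smul contDiff_const)⟩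
  have hGO : ∀ x ∈ O, ∀ v w, G x v w = Gm x v w := fun x hx v w => by rw [hG, h6 x hx]; ring
  obtain ⟨K, k1, k2, k3⟩ := g_bounds hGs.continuous (fun x v hv => by
    have h7 : 0 < ⟪v, v⟫ := real_inner_self_pos.2 hv
    rw [hG]
    rcases (h4 x).1.eq_or_lt with h | h
    · rwa [← h, zero_mul, zero_add, sub_zero, one_mul]
    have hx : x ≠ 0 := h3 (subset_tsupport _ h.ne')
    refine add_pos_of_pos_of_nonneg (mul_pos h ?_) (mul_nonneg (sub_nonneg.2 (h4 x).2) h7.le)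
    have hn := norm_pos_iff.2 hx
    rw [hGm]
    by_cases hd : dn x v = 0
    · rw [hd, map_zero, zero_add]
      exact mul_pos (by positivity) (mul_self_pos.2 fun h => hv (dn_inj hx hd h))
    · exact add_pos_of_pos_of_nonneg (g.pos _ _ hd) (mul_nonneg (by positivity) (mul_self_nonneg _))) h2
    fun x hx v => by rw [hG, image_eq_zero_of_notMem_tsupport hx, real_inner_self_eq_norm_sq]; ring
  refine ⟨⟨G, K, hGs, fun x v w => by rw [hG, hG, hGm, hGm, gi_symm, real_inner_comm v w, mul_comm ⟪x, v⟫], k1, k2, k3,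
    fun x w a b => ?_, fun x v a b => ?_⟩, fun γ v t h => ?_⟩
  · have hx : x ≠ 0 := norm_pos_iff.1 (by linarith)
    have := norm_ne_zero_iff.2 hx
    rw [hGO x (hO' x a b), hGm, gi_symm, dn_self hx, map_zero, real_inner_self_eq_norm_sq]
    field_simp
    ring
  · have hx : x ≠ 0 := norm_pos_iff.1 (by linarith)
    have hn := norm_ne_zero_iff.2 hx
    have d0 := (hasDerivAt_id' (1 : ℝ)).smul_const x
    have d1 := ((HasFDerivAt.comp_hasDerivAt (E := E n →L[ℝ] E n →L[ℝ] ℝ) 1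
      (hGs.differentiable (by simp) _).hasFDerivAt d0).clm_apply (hasDerivAt_const 1 v)).clm_apply
      (hasDerivAt_const 1 v)
    have d2 := (((hasDerivAt_id' (1 : ℝ)).fun_pow 2).fun_inv (by simp)).mul_const (G x v v)
    have := d1.unique (d2.congr_of_eventuallyEq (((lt_mem_nhds one_pos).and (d0.continuousAt.eventually
      (p := (· ∈ O)) (hO.mem_nhds (by simpa using hO' x a b)))).mono fun u hu => by
        have e := dn_smul hu.1 hx (u⁻¹ • v)
        rw [smul_inv_smul₀ hu.1.ne', map_smul] at e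
        simp only [Function.comp, hGO _ hu.2, hGO x (hO' x a b), hGm, e, nrm_smul hu.1, norm_smul, map_smul,
          smul_apply, smul_eq_mul, Real.norm_of_nonneg hu.1.le, inner_smul_left, conj_trivial]
        have := hu.1.ne'
        field_simp))
    simpa using this
  · have h7 : ‖(γ t : E n)‖ = 1 := norm_eq_of_mem_sphere _
    have h8 := dn_curve h (ne_zero_of_mem_unit_sphere _)
    have h9 := h.norm_sq.unique ((hasDerivAt_const t (1 : ℝ)).congr_of_eventuallyEq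
      (Eventually.of_forall fun u => by simp))
    rw [show (fun u => nrm (γ u)) = γ from funext fun u => nrm_val _] at h8
    change _ = G _ _ _
    rw [hGO _ (hO' _ (by rw [h7]; norm_num) (by rw [h7]; norm_num)), hGm, nrm_val, (mul_eq_zero.1 h9).resolve_left
      two_ne_zero, mul_zero, mul_zero, add_zero]
    exact congrArg₂ (fun a b => gi g (γ t) a b) h8 h8

end Crest.Agent.R231.Geo
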