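import Crest.Agent.R231.G.Per
import Crest.Agent.R231.G.Met
import Crest.Agent.R241.Geo.Var
import Crest.Prelude.Def_ClosedGeodesic

/-! R231, block G: periodic orbits of the flow are critical points of the energy. -/

set_option autoImplicit false
set_option maxSynthPendingDepth 3
open Set Filter Topology MeasureTheory
open scoped ContDiff RealInnerProductSpace Manifold
open Crest.Agent.R241 Crest.Agent.R241.RG Crest.GeometryTopology.Geodesic

noncomputable section
namespace Crest.Agent.R231.Geo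

variable {n : ℕ}

/-- differentiation under the integral sign -/
theorem g_param {f f' : ℝ × ℝ → ℝ} (hf : Continuous f) (hf' : Continuous f')
    (h : ∀ s t, HasDerivAt (fun s => f (s, t)) (f' (s, t)) s) :
    HasDerivAt (fun s => ∫ t in (0 : ℝ)..1, f (s, t)) (∫ t in (0 : ℝ)..1, f' (0, t)) 0 := by
  obtain ⟨B, hB⟩ := ((isCompact_Icc (a := (-1 : ℝ)) (b := 1)).prod
    (isCompact_uIcc (a := (0 : ℝ)) (b := 1))).exists_bound_of_continuousOn hf'.continuousOn
  exact (intervalIntegral.hasDerivAt_integral_of_dominated_loc_of_deriv_le (F := fun s t => f (s, t))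
    (F' := fun s t => f' (s, t)) (bound := fun _ => B) (Icc_mem_nhds (by norm_num) one_pos)
    (Eventually.of_forall fun s => (hf.comp (Continuous.prodMk_right s)).aestronglyMeasurable)
    ((hf.comp (Continuous.prodMk_right 0)).intervalIntegrable _ _)
    (hf'.comp (Continuous.prodMk_right 0)).aestronglyMeasurable
    (ae_of_all _ fun t ht s hs => hB (s, t) ⟨hs, uIoc_subset_uIcc ht⟩) intervalIntegrable_const
    (ae_of_all _ fun t _ s _ => h s t)).2

theorem Fl.closed {g : Bundle.ContMDiffRiemannianMetric (𝓡 n) ∞ (EuclideanSpace ℝ (Fin n))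
    (TangentSpace (𝓡 n) : M n → Type)} {F : Fl n} (hb : ∀ (γ : ℝ → M n) (v : E n) (t : ℝ),
      HasDerivAt (fun u => (γ u : E n)) v t → g.inner (γ t) (mfderiv 𝓘(ℝ, ℝ) (𝓡 n) γ t (1 : ℝ))
        (mfderiv 𝓘(ℝ, ℝ) (𝓡 n) γ t (1 : ℝ)) = F.G (γ t) v v) {P : E n × E n} (hP : F.Per P) :
    IsClosedGeodesic (𝓡 n) g (F.cv P) := by
  refine ⟨(ContMDiff.codRestrict_sphere (n := n) (f := fun t => (F.Φ (t, P)).1) (F.Φ_smooth.comp
    (contDiff_id.prodMk contDiff_const)).fst.contMDiff fun t => mem_sphere_zero_iff_norm.2 (F.tm hP.1 t).1).congr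
    fun t => Subtype.ext (F.cv_coe hP.1 t), cv_per hP.2.2, fun Γ hΓ h0 hp => ?_⟩
  obtain ⟨α, hα'⟩ : ∃ α : ℝ × ℝ → E n, α = fun q => (Γ q : E n) := ⟨_, rfl⟩
  have hα : ContDiff ℝ ∞ α := hα' ▸ contMDiff_iff_contDiff.1 (coe_smooth.comp hΓ)
  have e : (fun s => loopEnergy (𝓡 n) g fun t => Γ (s, t)) =
      fun s => ∫ t in (0 : ℝ)..1, F.en (α (s, t), RG.dd (0, 1) α (s, t)) := funext fun s =>
    intervalIntegral.integral_congr fun t _ => by
      subst hα'
      exact hb (fun t => Γ (s, t)) _ t (dd_t hα s t)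
  have c0 := hα.continuous
  have c1 := (dd_smooth (0, 1) hα).continuous
  have c2 := (dd_smooth (1, 0) hα).continuous
  have c3 := (dd_smooth (1, 0) (dd_smooth (0, 1) hα)).continuous
  have c4 := F.smooth.continuous
  have c5 := F.smooth.continuous_fderiv (by simp)
  have c6 : Continuous fun q => fderiv ℝ F.G (α q) (RG.dd (1, 0) α q) (RG.dd (0, 1) α q) (RG.dd (0, 1) α q) +
      2 * F.G (α q) (RG.dd (0, 1) α q) (RG.dd (1, 0) (RG.dd (0, 1) α) q) := by fun_prop
  have h1 := g_param (F.en_smooth.continuous.comp (c0.prodMk c1)) c6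
    fun s t => F.en_deriv ((dd_s hα s t).prodMk (dd_s (dd_smooth _ hα) s t))
  have a0 : ∀ t, α (0, t) = (F.Φ (t, P)).1 := fun t => by rw [hα', ← F.cv_coe hP.1, ← h0]
  have a1 : ∀ t, RG.dd (0, 1) α (0, t) = (F.Φ (t, P)).2 := fun t =>
    (dd_t hα 0 t).unique (by simpa only [a0] using F.d1 t P)
  have a2 : RG.dd (1, 0) α (0, 1) = RG.dd (1, 0) α (0, 0) := (dd_s hα 0 1).unique (by
    simpa only [hα', ← fun s => (hp s).eq] using dd_s hα 0 0)
  have h2 := intervalIntegral.integral_eq_sub_of_hasDerivAt (a := 0) (b := 1)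
    (f := fun t => 2 * F.G (F.Φ (t, P)).1 (F.Φ (t, P)).2 (RG.dd (1, 0) α (0, t))) (fun t _ => by
      refine ((F.var P (dd_t (dd_smooth (1, 0) hα) 0 t)).const_mul 2).congr_deriv ?_
      simp only [Function.comp, a0, a1, dd_comm hα (1, 0)]
      ring) ((c6.comp (Continuous.prodMk_right 0)).intervalIntegrable _ _)
  rw [hP.2.2, F.Φ_zero, a2, sub_self] at h2
  rw [e]
  exact h1.congr_deriv h2

end Crest.Agent.R231.Geo
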