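import Crest.Agent.R231.Setup
import Crest.Agent.R241.Geo.Flow

/-! R231, block G (owner helper88): an ambient metric, its geodesic flow and the local inverse of the exponential map. -/

set_option autoImplicit false
open Set Filter Topology
open scoped ContDiff RealInnerProductSpace

noncomputable section
namespace Crest.Agent.R231.Geo

/-- a smooth metric on `ℝ^{n+1}` that is a cylinder over the sphere in the annulus `1/2 < ‖x‖ < 2` -/
structure Met (n : ℕ) where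
  G : E n → E n →L[ℝ] E n →L[ℝ] ℝ
  K : ℝ
  smooth : ContDiff ℝ ∞ G
  symm : ∀ x v w, G x v w = G x w v
  one_le : 1 ≤ K
  lower : ∀ x v, ‖v‖ ^ 2 ≤ K ^ 2 * G x v v
  upper : ∀ x v, G x v v ≤ K ^ 2 * ‖v‖ ^ 2
  rad : ∀ x w, 1 / 2 < ‖x‖ → ‖x‖ < 2 → G x x w = ⟪x, w⟫ / ‖x‖ ^ 2
  euler : ∀ x v, 1 / 2 < ‖x‖ → ‖x‖ < 2 → fderiv ℝ G x x v v = -2 * G x v v

/-- the geodesic flow -/
structure Fl (n : ℕ) extends Met n where
  Φ : ℝ × (E n × E n) → E n × E n
  Φ_smooth : ContDiff ℝ ∞ Φ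
  Φ_zero : ∀ p, Φ (0, p) = p
  Φ_add : ∀ s t p, Φ (s + t, p) = Φ (s, Φ (t, p))
  Φ_smul : ∀ a t x v, Φ (t, (x, a • v)) = ((Φ (a * t, (x, v))).1, a • (Φ (a * t, (x, v))).2)
  d1 : ∀ t p, HasDerivAt (fun s => (Φ (s, p)).1) (Φ (t, p)).2 t
  d2 : ∀ t p, ∃ a, HasDerivAt (fun s => (Φ (s, p)).2) a t ∧ ∀ w, G (Φ (t, p)).1 a w =
    1 / 2 * fderiv ℝ G (Φ (t, p)).1 w (Φ (t, p)).2 (Φ (t, p)).2 -
      fderiv ℝ G (Φ (t, p)).1 (Φ (t, p)).2 (Φ (t, p)).2 w

variable {n : ℕ}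

namespace Met
variable (m : Met n)

/-- energy -/
def en (p : E n × E n) : ℝ := m.G p.1 p.2 p.2
/-- speed -/
def nr (p : E n × E n) : ℝ := √(m.en p)

theorem K_pos : 0 < m.K := one_pos.trans_le m.one_le

theorem en_nonneg (p : E n × E n) : 0 ≤ m.en p :=
  nonneg_of_mul_nonneg_right ((sq_nonneg _).trans (m.lower p.1 p.2)) (pow_pos m.K_pos 2)

theorem nr_nonneg (p : E n × E n) : 0 ≤ m.nr p := Real.sqrt_nonneg _

theorem nr_sq (p : E n × E n) : m.nr p ^ 2 = m.en p := Real.sq_sqrt (m.en_nonneg p)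

theorem norm_le (p : E n × E n) : ‖p.2‖ ≤ m.K * m.nr p :=
  abs_le_of_sq_le_sq' (by rw [mul_pow, nr_sq]; exact m.lower _ _) (mul_nonneg m.K_pos.le (m.nr_nonneg p)) |>.2

theorem nr_le (p : E n × E n) : m.nr p ≤ m.K * ‖p.2‖ :=
  abs_le_of_sq_le_sq' (by rw [mul_pow, nr_sq]; exact m.upper _ _) (mul_nonneg m.K_pos.le (norm_nonneg _)) |>.2

theorem nr_smul (x v : E n) (a : ℝ) : m.nr (x, a • v) = |a| * m.nr (x, v) := by
  rw [nr, nr, ← Real.sqrt_sq_eq_abs, ← Real.sqrt_mul (sq_nonneg a)]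
  simp only [en, map_smul, smul_apply, smul_eq_mul]
  ring_nf

theorem eq_zero {x v : E n} (h : m.G x v v = 0) : v = 0 := by
  have := m.lower x v
  rw [h, mul_zero] at this
  exact norm_eq_zero.1 (pow_eq_zero_iff two_ne_zero |>.1 (le_antisymm this (sq_nonneg _)))

theorem cs (x v w : E n) : m.G x v w ≤ m.nr (x, v) * m.nr (x, w) := by
  have h : ∀ t : ℝ, 0 ≤ m.en (x, w) * (t * t) + 2 * m.G x v w * t + m.en (x, v) := fun t => by
    have := m.en_nonneg (x, v + t • w)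
    simp only [en, map_add, map_smul, add_apply, smul_apply, smul_eq_mul,
      m.symm x w v] at this ⊢
    linarith
  have h2 := discrim_le_zero h
  rw [discrim, ← nr_sq, ← nr_sq] at h2
  exact (abs_le_of_sq_le_sq' (by nlinarith) (mul_nonneg (m.nr_nonneg _) (m.nr_nonneg _))).2

theorem en_smooth : ContDiff ℝ ∞ m.en :=
  ((m.smooth.comp contDiff_fst).clm_apply contDiff_snd).clm_apply contDiff_snd

theorem nr_cont : Continuous m.nr := m.en_smooth.continuous.sqrt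

theorem hasF (x : E n) : HasFDerivAt m.G (fderiv ℝ m.G x) x := (m.smooth.differentiable (by simp) x).hasFDerivAt

theorem dG {x v w : ℝ → E n} {x' v' w' : E n} {t : ℝ} (hx : HasDerivAt x x' t) (hv : HasDerivAt v v' t)
    (hw : HasDerivAt w w' t) : HasDerivAt (fun s => m.G (x s) (v s) (w s))
      (fderiv ℝ m.G (x t) x' (v t) (w t) + m.G (x t) v' (w t) + m.G (x t) (v t) w') t := by
  have h1 : HasDerivAt (fun s => m.G (x s)) (fderiv ℝ m.G (x t) x') t := 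
    HasFDerivAt.comp_hasDerivAt (E := E n →L[ℝ] E n →L[ℝ] ℝ) t (m.hasF _) hx
  have h2 := (h1.clm_apply hv).clm_apply hw
  rwa [add_apply] at h2

end Met

/-- the unit tangent bundle condition -/
def TM (p : E n × E n) : Prop := ‖p.1‖ = 1 ∧ ⟪p.1, p.2⟫ = 0

open Classical in
/-- total map to the sphere -/
def toM (x : E n) : M n := if h : ‖x‖ = 1 then ⟨x, mem_sphere_zero_iff_norm.2 h⟩ else north n

theorem toM_coe {x : E n} (h : ‖x‖ = 1) : (toM x : E n) = x := by rw [toM, dif_pos h]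

@[simp] theorem toM_val (x : M n) : toM (x : E n) = x := Subtype.ext (toM_coe (norm_eq_of_mem_sphere x))

/-- the local inverse of the exponential map -/
structure Lg (n : ℕ) extends Fl n where
  r : ℝ
  e0 : ℝ
  lg : E n × E n → E n
  W : Set (E n × E n)
  r_pos : 0 < r
  r_le : K * r ≤ 1 / 4
  e0_pos : 0 < e0
  e0_le : e0 ≤ 1 / 2
  W_open : IsOpen W
  mem_W : ∀ x y, ‖x‖ = 1 → ‖x - y‖ < e0 → (x, y) ∈ W
  lg_smooth : ContDiffOn ℝ ∞ lg W
  lg_lt : ∀ p ∈ W, toMet.nr (p.1, lg p) < r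
  exp_lg : ∀ p ∈ W, (Φ (1, (p.1, lg p))).1 = p.2
  uniq : ∀ x v v', ‖x‖ = 1 → toMet.nr (x, v) < r → toMet.nr (x, v') < r → (Φ (1, (x, v))).1 = (Φ (1, (x, v'))).1 → v = v'

end Crest.Agent.R231.Geo
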