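import Crest.Agent.R231.G.Var

/-! R231, block G: the truncated distance, short geodesics and the generating function. -/

set_option autoImplicit false
set_option maxSynthPendingDepth 3
open Set Filter Topology
open scoped ContDiff RealInnerProductSpace
open Crest.Agent.R241.RG

noncomputable section
namespace Crest.Agent.R231.Geo

variable {n : ℕ}

/-- the geodesic with initial data `p` as a curve on the sphere -/
def Fl.cv (F : Fl n) (p : E n × E n) (t : ℝ) : M n := toM (F.Φ (t, p)).1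

theorem Fl.cv_coe (F : Fl n) {p : E n × E n} (hp : TM p) (t : ℝ) : (F.cv p t : E n) = (F.Φ (t, p)).1 :=
  toM_coe (F.tm hp t).1

theorem Fl.cv_zero (F : Fl n) (x : M n) (v : E n) : F.cv (x, v) 0 = x := by simp [Fl.cv, F.Φ_zero]

theorem Fl.cv_deriv (F : Fl n) {p : E n × E n} (hp : TM p) (t : ℝ) :
    HasDerivAt (fun u => (F.cv p u : E n)) (F.Φ (t, p)).2 t := by
  simpa only [F.cv_coe hp] using F.d1 t p

theorem nM (x : M n) : ‖(x : E n)‖ = 1 := norm_eq_of_mem_sphere x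

namespace Lg
variable (L : Lg n)

def δ : ℝ := min L.r (L.e0 / (4 * L.K))
/-- initial data of the short geodesic -/
def ip (p : E n × E n) : E n × E n := (p.1, L.lg p)
open Classical in
def ρ (x y : M n) : ℝ := if ‖(x : E n) - y‖ < L.e0 then min (L.nr (L.ip (x, y))) L.δ else L.δ
def gs (x y : M n) (t : ℝ) : M n := L.cv (L.ip (x, y)) t

theorem δ_pos : 0 < L.δ := lt_min L.r_pos (div_pos L.e0_pos (mul_pos four_pos L.K_pos))

theorem Kδ : L.K * L.δ ≤ L.e0 / 4 := (mul_le_mul_of_nonneg_left (min_le_right _ _) L.K_pos.le).trans_eq (by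
  have := L.K_pos
  field_simp)

theorem ρ_le_δ (x y : M n) : L.ρ x y ≤ L.δ := by
  unfold ρ
  split_ifs
  exacts [min_le_right _ _, le_rfl]

theorem ρ_nonneg (x y : M n) : 0 ≤ L.ρ x y := by
  unfold ρ
  split_ifs
  exacts [le_min (L.nr_nonneg _) L.δ_pos.le, L.δ_pos.le]

variable {L}

theorem ρ_lt {x y : M n} (h : L.ρ x y < L.δ) : ((x : E n), (y : E n)) ∈ L.W ∧ L.ρ x y = L.nr (L.ip (x, y)) := by
  unfold ρ at h ⊢
  split_ifs at h ⊢ with h1
  · exact ⟨L.mem_W _ _ (nM x) h1, min_eq_left (min_lt_iff.1 h |>.resolve_right (lt_irrefl _)).le⟩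
  · exact absurd h (lt_irrefl _)

theorem ρ_le_nr {x y : M n} (h : ‖(x : E n) - y‖ < L.e0) : L.ρ x y ≤ L.nr (L.ip (x, y)) := by
  rw [ρ, if_pos h]
  exact min_le_left _ _

theorem norm_le_nr {p : E n × E n} (hp : p ∈ L.W) : ‖p.1 - p.2‖ ≤ L.K * L.nr (L.ip p) := by
  have := L.disp 1 (L.ip p)
  rwa [ip, L.exp_lg p hp, abs_one, mul_one, norm_sub_rev] at this

theorem lg_eq {x v : E n} (hx : ‖x‖ = 1) (hv : L.nr (x, v) < L.δ) :
    ‖x - (L.Φ (1, (x, v))).1‖ < L.e0 ∧ L.lg (x, (L.Φ (1, (x, v))).1) = v := by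
  have h1 : ‖x - (L.Φ (1, (x, v))).1‖ < L.e0 := by
    have := L.disp 1 (x, v)
    rw [abs_one, mul_one, norm_sub_rev] at this
    linarith [mul_lt_mul_of_pos_left hv L.K_pos, L.Kδ, L.e0_pos]
  have h2 := L.mem_W _ _ hx h1
  exact ⟨h1, L.uniq x _ _ hx (L.lg_lt _ h2) (hv.trans_le (min_le_left _ _)) (L.exp_lg _ h2)⟩

theorem lg_rad {x y : E n} (hx : ‖x‖ = 1) (hp : (x, y) ∈ L.W) : Real.log (‖y‖ ^ 2) = 2 * ⟪x, L.lg (x, y)⟫ := by
  rw [← L.log_norm hx ((mul_le_mul_of_nonneg_left (L.lg_lt _ hp).le L.K_pos.le).trans L.r_le), L.exp_lg _ hp]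

theorem tm_ip {x y : M n} (h : ((x : E n), (y : E n)) ∈ L.W) : TM (L.ip (x, y)) :=
  ⟨nM x, by simpa [nM, ip] using lg_rad (nM x) h⟩

theorem lg_has {p : E n × E n} (hp : p ∈ L.W) : HasFDerivAt L.lg (fderiv ℝ L.lg p) p :=
  ((L.lg_smooth.contDiffAt (L.W_open.mem_nhds hp)).differentiableAt (by simp)).hasFDerivAt

theorem exp_deriv {z : ℝ → E n × E n} {q : E n × E n} {s : ℝ} (hz : HasDerivAt z q s) (hp : z s ∈ L.W) :
    HasDerivAt (fun s => (L.Φ (1, L.ip (z s))).1) q.2 s :=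
  (flow_snd hz).congr_of_eventuallyEq ((hz.continuousAt.eventually (L.W_open.mem_nhds hp)).mono
    fun _ h => L.exp_lg _ h)

/-- first variation of the squared distance -/
theorem dS {z : ℝ → E n × E n} {q : E n × E n} {s : ℝ} (hz : HasDerivAt z q s) (hp : z s ∈ L.W) :
    HasDerivAt (fun s => L.en (L.ip (z s)))
      (2 * L.G (z s).2 (L.Φ (1, L.ip (z s))).2 q.2 - 2 * L.G (z s).1 (L.lg (z s)) q.1) s := by
  have := L.gauss ((flow_fst hz).prodMk ((lg_has hp).comp_hasDerivAt s hz)) (exp_deriv hz hp)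
  rwa [Function.comp, L.exp_lg _ hp] at this

theorem tri0 {x : E n} {σ σ' : ℝ → E n} {l : ℝ} (hW : ∀ t ∈ Icc (0 : ℝ) 1, (x, σ t) ∈ L.W)
    (hσ : ∀ t, HasDerivAt σ (σ' t) t) (hl : ∀ t ∈ Icc (0 : ℝ) 1, L.nr (σ t, σ' t) ≤ l) :
    L.nr (L.ip (x, σ 1)) ≤ L.nr (L.ip (x, σ 0)) + l := by
  refine le_of_forall_pos_le_add fun ε hε => ?_
  have hp : ∀ t, 0 < L.en (L.ip (x, σ t)) + ε ^ 2 := fun t => add_pos_of_nonneg_of_pos (L.en_nonneg _) (by positivity)
  have h1 := fun t ht => ((dS ((hasDerivAt_const t x).prodMk (hσ t)) (hW t ht)).add_const (ε ^ 2)).sqrt (hp t).ne'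
  have h2 := image_le_of_deriv_right_le_deriv_boundary (a := 0) (b := 1)
    (fun t ht => (h1 t ht).continuousAt.continuousWithinAt)
    (fun t ht => (h1 t (Ico_subset_Icc_self ht)).hasDerivWithinAt)
    (B := fun t => √(L.en (L.ip (x, σ 0)) + ε ^ 2) + l * t) (B' := fun _ => l) (by simp) (by fun_prop)
    (fun t _ => (((hasDerivAt_id' t).const_mul l).const_add _ |>.congr_deriv (mul_one l)).hasDerivWithinAt)
    (fun t ht => by
      have ht' := Ico_subset_Icc_self ht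
      have h3 := L.cs (σ t) (L.Φ (1, L.ip (x, σ t))).2 (σ' t)
      have h4 := L.nr_flow 1 (L.ip (x, σ t))
      rw [← Prod.mk.eta (p := L.Φ _), ip, L.exp_lg _ (hW t ht'), ← ip] at h4
      have h5 : L.nr (L.ip (x, σ t)) ≤ √(L.en (L.ip (x, σ t)) + ε ^ 2) :=
        Real.sqrt_le_sqrt (le_add_of_nonneg_right (sq_nonneg ε))
      rw [map_zero, mul_zero, sub_zero, mul_div_mul_left _ _ two_ne_zero, div_le_iff₀' (Real.sqrt_pos.2 (hp t))]
      exact h3.trans (mul_le_mul (h4.trans_le h5) (hl t ht') (L.nr_nonneg _) (Real.sqrt_nonneg _))) (x := 1) (by simp)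
  have h3 : √(L.en (L.ip (x, σ 0)) + ε ^ 2) ≤ L.nr (L.ip (x, σ 0)) + ε := by
    have := L.nr_nonneg (L.ip (x, σ 0))
    rw [Real.sqrt_le_left (by positivity), ← L.nr_sq]
    nlinarith
  have h5 : L.nr (L.ip (x, σ 1)) ≤ √(L.en (L.ip (x, σ 1)) + ε ^ 2) :=
    Real.sqrt_le_sqrt (le_add_of_nonneg_right (sq_nonneg ε))
  linarith

theorem geo_loc {p : E n × E n} (hp : TM p) {s t : ℝ} (h : L.nr p * |s - t| < L.δ) :
    ‖(L.cv p s : E n) - L.cv p t‖ < L.e0 ∧
      L.ip (L.cv p s, L.cv p t) = ((L.Φ (s, p)).1, (t - s) • (L.Φ (s, p)).2) := by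
  have := lg_eq (L.tm hp s).1 (v := (t - s) • (L.Φ (s, p)).2) (by
    rwa [L.nr_smul, Prod.mk.eta, L.nr_flow, abs_sub_comm, mul_comm])
  rw [L.Φ_smul, mul_one, Prod.mk.eta, ← L.Φ_add, sub_add_cancel] at this
  rw [L.cv_coe hp, L.cv_coe hp, ip]
  exact ⟨this.1, Prod.ext rfl this.2⟩

theorem cv_loc {p : E n × E n} (hp : TM p) {s t : ℝ} (h : L.nr p * |s - t| < L.δ) :
    L.ρ (L.cv p s) (L.cv p t) = L.nr p * |s - t| ∧
      ∀ u, L.gs (L.cv p s) (L.cv p t) u = L.cv p ((1 - u) * s + u * t) := by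
  obtain ⟨h1, h2⟩ := geo_loc hp h
  refine ⟨?_, fun u => ?_⟩
  · rw [ρ, if_pos h1, h2, L.nr_smul, Prod.mk.eta, L.nr_flow, abs_sub_comm, mul_comm, min_eq_left h.le]
  · rw [gs, h2, Fl.cv, L.Φ_smul, Prod.mk.eta, ← L.Φ_add, Fl.cv]
    rw [show (t - s) * u + s = (1 - u) * s + u * t by ring]

theorem gs_zero (x y : M n) : L.gs x y 0 = x := L.cv_zero x _

theorem gs_one {x y : M n} (h : L.ρ x y < L.δ) : L.gs x y 1 = y := by
  rw [gs, Fl.cv, ip, L.exp_lg _ (ρ_lt h).1, toM_val]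

theorem gs_loc {x y : M n} (h : L.ρ x y < L.δ) {s t : ℝ} (hst : |s - t| ≤ 1) :
    L.ρ (L.gs x y s) (L.gs x y t) = |s - t| * L.ρ x y ∧
      ∀ u, L.gs (L.gs x y s) (L.gs x y t) u = L.gs x y ((1 - u) * s + u * t) := by
  have := cv_loc (tm_ip (ρ_lt h).1) (s := s) (t := t) (by
    rw [← (ρ_lt h).2]
    exact (mul_le_of_le_one_right (L.ρ_nonneg x y) hst).trans_lt h)
  rwa [← (ρ_lt h).2, mul_comm] at this

theorem ρ_comm (x y : M n) : L.ρ x y = L.ρ y x := by
  have key : ∀ x y : M n, L.ρ x y < L.δ → L.ρ y x = L.ρ x y := fun x y h => by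
    simpa [gs_zero, gs_one h] using (gs_loc h (s := 1) (t := 0) (by simp)).1
  rcases (L.ρ_le_δ x y).eq_or_lt with h | h
  · rcases (L.ρ_le_δ y x).eq_or_lt with h' | h'
    · rw [h, h']
    · exact key y x h'
  · exact (key x y h).symm

theorem gs_symm {x y : M n} (h : L.ρ x y < L.δ) (t : ℝ) : L.gs y x (1 - t) = L.gs x y t := by
  simpa [gs_zero, gs_one h] using (gs_loc h (s := 1) (t := 0) (by simp)).2 (1 - t)

theorem ρ_tri (x y z : M n) : L.ρ x z ≤ L.ρ x y + L.ρ y z := by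
  have h0 := L.ρ_le_δ x z
  rcases (L.ρ_le_δ x y).eq_or_lt with h | h
  · linarith [L.ρ_nonneg y z]
  rcases (L.ρ_le_δ y z).eq_or_lt with h' | h'
  · linarith [L.ρ_nonneg x y]
  have h1 : ∀ t ∈ Icc (0 : ℝ) 1, ‖(x : E n) - (L.Φ (t, L.ip (y, z))).1‖ < L.e0 := fun t ht => by
    have h2 := L.disp t (L.ip (y, z))
    have h3 := norm_le_nr (ρ_lt h).1
    rw [← (ρ_lt h').2, norm_sub_rev] at h2
    rw [← (ρ_lt h).2] at h3
    have h4 := mul_le_of_le_one_right (mul_nonneg L.K_pos.le (L.ρ_nonneg y z)) (abs_le.2 ⟨by linarith [ht.1], ht.2⟩)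
    linarith [norm_sub_le_norm_sub_add_norm_sub (x : E n) y (L.Φ (t, L.ip (y, z))).1, L.Kδ, L.e0_pos,
      mul_lt_mul_of_pos_left h L.K_pos, mul_lt_mul_of_pos_left h' L.K_pos, show (L.ip (y, z)).1 = y from rfl,
      h2.trans_eq' (show _ = ‖(y : E n) - _‖ from rfl)]
  have h2 := tri0 (fun t ht => L.mem_W _ _ (nM x) (h1 t ht)) (fun t => L.d1 t _) fun t _ => (L.nr_flow t _).le
  have h3 := h1 1 (by simp)
  rw [L.Φ_zero, ip, ip, L.exp_lg _ (ρ_lt h').1] at h2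
  rw [ip, L.exp_lg _ (ρ_lt h').1] at h3
  rw [(ρ_lt h).2, (ρ_lt h').2]
  exact (ρ_le_nr h3).trans h2

theorem ρ_le (x y : M n) : L.ρ x y ≤ (L.K + L.δ / L.e0 + 2 / L.δ) * dist x y := by
  have h0 := L.δ_pos
  have h1 := L.e0_pos
  have hK := L.K_pos
  rw [Subtype.dist_eq, dist_eq_norm]
  rcases lt_or_ge ‖(x : E n) - y‖ L.e0 with h | h
  · have h2 := tri0 (L := L) (x := x) (σ := fun t => x + t • ((y : E n) - x)) (σ' := fun _ => (y : E n) - x)
      (l := L.K * ‖(y : E n) - x‖)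
      (fun t ht => L.mem_W _ _ (nM x) (by
        rw [sub_add_cancel_left, norm_neg, norm_smul, Real.norm_of_nonneg ht.1, norm_sub_rev]
        exact (mul_le_of_le_one_left (norm_nonneg _) ht.2).trans_lt h))
      (fun t => by simpa using ((hasDerivAt_id' t).smul_const ((y : E n) - x)).const_add (x : E n))
      fun t _ => L.nr_le _
    have h3 : L.nr ((x : E n), (0 : E n)) = 0 := by simp [Met.nr, Met.en]
    have h4 := (lg_eq (L := L) (nM x) (h3.trans_lt h0)).2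
    rw [L.Φ_rest] at h4
    simp only [one_smul, add_sub_cancel, zero_smul, add_zero, ip, h4, h3, zero_add] at h2
    rw [norm_sub_rev] at h2
    exact ((ρ_le_nr h).trans h2).trans (mul_le_mul_of_nonneg_right (by
      rw [add_assoc]; exact le_add_of_nonneg_right (by positivity)) (norm_nonneg _))
  · calc L.ρ x y ≤ L.δ / L.e0 * L.e0 := (L.ρ_le_δ x y).trans_eq (div_mul_cancel₀ _ h1.ne').symm
      _ ≤ _ := mul_le_mul (by have : 0 < 2 / L.δ := by positivity
                              linarith) h h1.le (by positivity)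

theorem dist_le (x y : M n) : dist x y ≤ (L.K + L.δ / L.e0 + 2 / L.δ) * L.ρ x y := by
  have h0 := L.δ_pos
  have h1 := L.e0_pos
  have hK := L.K_pos
  rw [Subtype.dist_eq, dist_eq_norm]
  rcases (L.ρ_le_δ x y).eq_or_lt with h | h
  · calc ‖(x : E n) - y‖ ≤ 2 / L.δ * L.δ := by
          rw [div_mul_cancel₀ _ h0.ne']
          exact (norm_sub_le _ _).trans_eq (by rw [nM, nM]; norm_num)
      _ ≤ _ := mul_le_mul (le_add_of_nonneg_left (by positivity)) h.ge h0.le (by positivity)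
  · exact ((norm_le_nr (ρ_lt h).1).trans_eq (by rw [(ρ_lt h).2])).trans (mul_le_mul_of_nonneg_right (by
      rw [add_assoc]; exact le_add_of_nonneg_right (by positivity)) (L.ρ_nonneg x y))

theorem gv_cont : ContinuousOn (fun p : M n × M n × ℝ => L.Φ (p.2.2, L.ip (p.1, p.2.1))) {p | L.ρ p.1 p.2.1 < L.δ} :=
  L.Φ_smooth.continuous.comp_continuousOn (ContinuousOn.prodMk (by fun_prop) (ContinuousOn.prodMk (by fun_prop)
    (L.lg_smooth.continuousOn.comp (by fun_prop) fun _ hp => (ρ_lt hp).1)))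

theorem gs_cont : ContinuousOn (fun p : M n × M n × ℝ => L.gs p.1 p.2.1 p.2.2) {p | L.ρ p.1 p.2.1 < L.δ} :=
  Topology.IsInducing.subtypeVal.continuousOn_iff.2 (gv_cont.fst.congr fun _ hp => L.cv_coe (tm_ip (ρ_lt hp).1) _)

variable (L) in
theorem exists_S : ∃ S : E n × E n → ℝ, ContDiff ℝ ∞ S ∧
    ∀ x y : M n, L.ρ x y < L.δ → S =ᶠ[𝓝 ((x : E n), (y : E n))] fun p => L.en (L.ip p) := by
  have hK : IsCompact ((fun q : E n × E n => (q.1, q.1 - q.2)) ''
      (Metric.sphere 0 1 ×ˢ Metric.closedBall 0 (L.e0 / 2))) :=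
    ((isCompact_sphere _ _).prod (isCompact_closedBall _ _)).image (by fun_prop)
  obtain ⟨χ, h1, -, h2, -, O, h3, h4, -, h5⟩ := R203.exists_cutoff L.W_open hK (by
    rintro _ ⟨q, ⟨hq1, hq2⟩, rfl⟩
    refine L.mem_W _ _ (mem_sphere_zero_iff_norm.1 hq1) ?_
    rw [sub_sub_cancel]
    linarith [mem_closedBall_zero_iff.1 hq2, L.e0_pos])
  refine ⟨_, R203.contDiff_cutoff_smul L.W_open h1 h2 (L.en_smooth.comp_contDiffOn
    (contDiffOn_fst.prodMk L.lg_smooth)), fun x y h => ?_⟩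
  have : ((x : E n), (y : E n)) ∈ O := h4 ⟨(x, x - y), ⟨x.2, mem_closedBall_zero_iff.2 (by
    have := norm_le_nr (ρ_lt h).1
    rw [← (ρ_lt h).2] at this
    linarith [mul_lt_mul_of_pos_left h L.K_pos, L.Kδ, L.e0_pos])⟩, by simp⟩
  filter_upwards [h3.mem_nhds this] with p hp
  rw [h5 p hp, one_smul]
  rfl

variable {S : E n × E n → ℝ}

theorem fderiv_S (hS : ContDiff ℝ ∞ S) {p : E n × E n} (hp : p ∈ L.W) (h : S =ᶠ[𝓝 p] fun p => L.en (L.ip p))
    (q : E n × E n) : fderiv ℝ S p q = 2 * L.G p.2 (L.Φ (1, L.ip p)).2 q.2 - 2 * L.G p.1 (L.lg p) q.1 := by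
  have h1 := (hS.differentiable (by simp) _).hasFDerivAt.comp_hasDerivAt 0 (g_line p q)
  have h2 := dS (g_line p q) (by simpa using hp)
  simp only [zero_smul, add_zero] at h1 h2
  refine h1.unique (h2.congr_of_eventuallyEq ((g_line p q).continuousAt.eventually (p := fun z => S z = L.en (L.ip z)) ?_))
  simp only [zero_smul, add_zero]
  exact h

theorem S_mixed (hS : ContDiff ℝ ∞ S) {x y : M n} (hp : ((x : E n), (y : E n)) ∈ L.W)
    (h : S =ᶠ[𝓝 ((x : E n), (y : E n))] fun p => L.en (L.ip p)) {v : E n} (hv : ⟪v, (y : E n)⟫ = 0)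
    (H : ∀ w : E n, ⟪w, (x : E n)⟫ = 0 → fderiv ℝ (fderiv ℝ S) (x, y) (w, 0) (0, v) = 0) : v = 0 := by
  have hz : HasDerivAt (fun s : ℝ => ((x : E n), (y : E n) + s • v)) (0, v) 0 :=
    (hasDerivAt_const _ _).prodMk (g_line _ _)
  have e0 : ((x : E n), (y : E n) + (0 : ℝ) • v) = ((x : E n), (y : E n)) := by simp
  have hp' : ((x : E n), (y : E n) + (0 : ℝ) • v) ∈ L.W := by rwa [e0]
  have h' : S =ᶠ[𝓝 ((x : E n), (y : E n) + (0 : ℝ) • v)] fun p => L.en (L.ip p) := by rwa [e0]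
  have hW := hz.continuousAt.eventually (p := (· ∈ L.W)) (L.W_open.mem_nhds hp')
  have ha := (lg_has hp').comp_hasDerivAt 0 hz
  generalize fderiv ℝ L.lg _ _ = a at ha
  have h1 : ⟪a, (x : E n)⟫ = 0 := by
    have h2 := ((g_line (y : E n) v).norm_sq.log (by simp)).unique
      ((((hasDerivAt_const 0 (x : E n)).inner ℝ ha).const_mul 2).congr_of_eventuallyEq
        (hW.mono fun s hs => lg_rad (nM x) hs))
    rw [zero_smul, add_zero, real_inner_comm, hv] at h2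
    simpa [real_inner_comm] using h2
  have h2 : fderiv ℝ (fderiv ℝ S) (x, y) (0, v) (a, 0) = -2 * L.G x a a := by
    have h3 := (HasFDerivAt.comp_hasDerivAt 0 (((hS.fderiv_right (m := ∞) le_rfl).differentiable (by simp) _).hasFDerivAt)
      hz).clm_apply (hasDerivAt_const 0 (a, (0 : E n)))
    have h4 := (((L.G x).hasFDerivAt.comp_hasDerivAt 0 ha).clm_apply (hasDerivAt_const 0 a)).const_mul (-2)
    have h5 := h3.unique (h4.congr_of_eventuallyEq ((hW.and (hz.continuousAt.eventually (p := fun p =>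
      S =ᶠ[𝓝 p] fun p => L.en (L.ip p)) h'.eventually_nhds)).mono fun s hs => by
        simp [fderiv_S hS hs.1 hs.2]))
    simpa using h5
  rw [← hS.contDiffAt.isSymmSndFDerivAt (by rw [minSmoothness_of_isRCLikeNormedField]; exact WithTop.coe_le_coe.2 le_top),
    H a h1] at h2
  have h3 : a = 0 := L.eq_zero (x := x) (by linarith)
  have h4 := (exp_deriv hz hp').unique (flow_fst (L.d_par ((hasDerivAt_const 0 (x : E n)).prodMk ha) 1))
  rw [h3] at h4
  exact h4.trans (by rw [show (((0 : ℝ), ((0 : E n), (0 : E n))) : ℝ × (E n × E n)) = 0 from rfl, map_zero]; rfl)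

end Lg
end Crest.Agent.R231.Geo
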