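import Crest.Agent.R231.G.Defs

/-! R231, block G: the geodesic flow of an ambient metric. -/

set_option autoImplicit false
set_option maxSynthPendingDepth 3
open Set Filter Topology
open scoped ContDiff RealInnerProductSpace
open Crest.Agent.R241.RG

noncomputable section
namespace Crest.Agent.R231.Geo

theorem g_flow_of_bound {B : Type} [NormedAddCommGroup B] [NormedSpace ℝ B] [FiniteDimensional ℝ B] {W : B → B}
    (hW : ContDiff ℝ ∞ W) {C : ℝ} (hC : 0 ≤ C) (hb : ∀ (α : ℝ → B) (l : ℝ → ℝ), (∀ t, 0 ≤ l t ∧ l t ≤ 1) →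
      (∀ t, HasDerivAt α (l t • W (α t)) t) → ∀ t, ‖α t‖ ≤ (1 + |t|) * (C * ‖α 0‖)) :
    ∃ Φ : ℝ × B → B, ContDiff ℝ ∞ Φ ∧ (∀ x, Φ (0, x) = x) ∧
      ∀ t x, HasDerivAt (fun s => Φ (s, x)) (W (Φ (t, x))) t := by
  have key : ∀ n : ℕ, ∃ Φ : ℝ × B → B, ContDiff ℝ ∞ Φ ∧ (∀ x, Φ (0, x) = x) ∧
      ∀ t x, (1 + |t|) * (C * ‖x‖) < n → HasDerivAt (fun s => Φ (s, x)) (W (Φ (t, x))) t := by
    intro n
    obtain ⟨χ, h1, h2, -, h3, O, -, h4, -, h5⟩ := R203.exists_cutoff isOpen_univ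
      (isCompact_closedBall (0 : B) n) (subset_univ _)
    have h6 : ContDiff ℝ ∞ fun x => χ x • W x := h1.smul hW
    obtain ⟨K, hK⟩ := (h6.continuous_fderiv (by simp)).bounded_above_of_compact_support
      ((h2.smul_right (f' := W)).fderiv ℝ)
    obtain ⟨Φ, h7, h8, h9, -⟩ := R203.exists_smooth_flow h6 hK
    refine ⟨Φ, h7, h8, fun t x h => ?_⟩
    have h10 := hb (fun s => Φ (s, x)) (fun s => χ (Φ (s, x))) (fun s => h3 _) (fun s => h9 s x) t
    rw [h8] at h10
    have := h9 t x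
    rwa [h5 _ (h4 (mem_closedBall_zero_iff.2 (h10.trans h.le))), one_smul] at this
  choose Φ h1 h2 h3 using key
  have hc : Continuous fun q : ℝ × B => (1 + |q.1|) * (C * ‖q.2‖) := by fun_prop
  have heq : ∀ (n m : ℕ) (q : ℝ × B), (1 + |q.1|) * (C * ‖q.2‖) < n → (1 + |q.1|) * (C * ‖q.2‖) < m →
      Φ n q = Φ m q := by
    rintro n m ⟨t, x⟩ hn hm
    have hc' : Continuous fun T : ℝ => (1 + T) * (C * ‖x‖) := by fun_prop
    obtain ⟨T, ⟨hT1, hT2⟩, hT⟩ := ((((hc'.continuousAt (x := |t|)).eventually_lt continuousAt_const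
      hn).and ((hc'.continuousAt (x := |t|)).eventually_lt continuousAt_const hm)).filter_mono
        (nhdsWithin_le_nhds (s := Ioi |t|))).and self_mem_nhdsWithin |>.exists
    have hT0 : 0 < T := (abs_nonneg t).trans_lt hT
    have hle : ∀ s ∈ Ioo (-T) T, (1 + |s|) * (C * ‖x‖) ≤ (1 + T) * (C * ‖x‖) := fun s hs => by
      gcongr
      exact (abs_lt.2 hs).le
    exact ode_unique hW (t₀ := 0) ⟨neg_lt_zero.2 hT0, hT0⟩
      (fun s hs => h3 n s x ((hle s hs).trans_lt hT1))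
      (fun s hs => h3 m s x ((hle s hs).trans_lt hT2)) (by simp only [h2]) (abs_lt.1 hT)
  have hlt : ∀ q : ℝ × B, (1 + |q.1|) * (C * ‖q.2‖) < (⌊(1 + |q.1|) * (C * ‖q.2‖)⌋₊ + 1 : ℕ) := fun q => by
    exact_mod_cast Nat.lt_floor_add_one _
  have hev : ∀ q : ℝ × B, (fun q : ℝ × B => Φ (⌊(1 + |q.1|) * (C * ‖q.2‖)⌋₊ + 1) q) =ᶠ[𝓝 q]
      Φ (⌊(1 + |q.1|) * (C * ‖q.2‖)⌋₊ + 1) := fun q =>
    (hc.continuousAt.eventually_lt continuousAt_const (hlt q)).mono fun q' hq' =>
      heq _ _ q' (hlt q') hq'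
  refine ⟨fun q => Φ (⌊(1 + |q.1|) * (C * ‖q.2‖)⌋₊ + 1) q, contDiff_iff_contDiffAt.2 fun q =>
    (h1 _).contDiffAt.congr_of_eventuallyEq (hev q), fun x => h2 _ x, fun t x => ?_⟩
  exact (h3 _ t x (hlt (t, x))).congr_of_eventuallyEq
    ((Continuous.prodMk_left x).continuousAt.eventually (hev (t, x)))

variable {n : ℕ} (m : Met n)

theorem Met.inv (x : E n) : (m.G x).IsInvertible := by
  have hi : Function.Injective (m.G x : E n →ₗ[ℝ] E n →L[ℝ] ℝ) :=
    (injective_iff_map_eq_zero _).2 fun v hv => m.eq_zero (x := x) (by rw [show m.G x v = 0 from hv]; rfl)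
  have hd : Module.finrank ℝ (E n) = Module.finrank ℝ (E n →L[ℝ] ℝ) :=
    Subspace.dual_finrank_eq.symm.trans LinearMap.toContinuousLinearMap.finrank_eq
  exact ⟨(LinearMap.linearEquivOfInjective _ hi hd).toContinuousLinearEquiv, rfl⟩

/-- the acceleration of the geodesics -/
theorem Met.exists_acc : ∃ A : E n × E n → E n, ContDiff ℝ ∞ A ∧ (∀ p w, m.G p.1 (A p) w =
    1 / 2 * fderiv ℝ m.G p.1 w p.2 p.2 - fderiv ℝ m.G p.1 p.2 p.2 w) := by
  let L : E n × E n → E n →L[ℝ] ℝ := fun p =>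
    (1 / 2 : ℝ) • ((fderiv ℝ m.G p.1).flip p.2).flip p.2 - fderiv ℝ m.G p.1 p.2 p.2
  have hL : ∀ p w, L p w = 1 / 2 * fderiv ℝ m.G p.1 w p.2 p.2 - fderiv ℝ m.G p.1 p.2 p.2 w := fun _ _ => rfl
  have hD : ContDiff ℝ ∞ fun p : E n × E n => fderiv ℝ m.G p.1 :=
    (m.smooth.fderiv_right (m := ∞) le_rfl).comp contDiff_fst
  have hL' : ContDiff ℝ ∞ L := contDiff_clm_apply_iff.2 fun w => by
    simp only [hL]
    exact (contDiff_const.mul (((hD.clm_apply contDiff_const).clm_apply contDiff_snd).clm_apply contDiff_snd)).sub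
      (((hD.clm_apply contDiff_snd).clm_apply contDiff_snd).clm_apply contDiff_const)
  refine ⟨fun p => (m.G p.1).inverse (L p), ContDiff.clm_apply (contDiff_iff_contDiffAt.2 fun p =>
    ContDiffAt.comp (f := fun p : E n × E n => m.G p.1) p (m.inv p.1).contDiffAt_map_inverse
      (m.smooth.comp contDiff_fst).contDiffAt) hL', fun p w => ?_⟩
  rw [(m.inv p.1).self_apply_inverse, hL]

theorem exists_fl : ∃ F : Fl n, F.toMet = m := by
  obtain ⟨A, hA, h⟩ := m.exists_acc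
  have hV : ContDiff ℝ ∞ fun p : E n × E n => (p.2, A p) := contDiff_snd.prodMk hA
  have hs : ∀ x v (a : ℝ), A (x, a • v) = (a * a) • A (x, v) := fun x v a => (m.inv x).injective (by
    ext w
    have h1 := h (x, a • v) w
    have h2 := h (x, v) w
    simp only [map_smul, smul_apply, smul_eq_mul] at h1 h2 ⊢
    rw [h1, h2]
    ring)
  have hK := m.one_le
  obtain ⟨Φ, h1, h2, h3⟩ := g_flow_of_bound hV (C := m.K ^ 2) (by positivity) fun α l hl hα t => by
    have e1 : ∀ t, m.en (α t) = m.en (α 0) := fun t => by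
      have hd : ∀ s, HasDerivAt (fun s => m.en (α s)) 0 s := fun s =>
        (m.dG (flow_fst (hα s)) (flow_snd (hα s)) (flow_snd (hα s))).congr_deriv (by
          simp only [Prod.smul_fst, Prod.smul_snd, map_smul, smul_apply, smul_eq_mul, m.symm _ (α s).2 (A _), h]
          ring)
      exact is_const_of_deriv_eq_zero (fun s => (hd s).differentiableAt) (fun s => (hd s).deriv) t 0
    have e2 : ∀ t, ‖(α t).2‖ ≤ m.K ^ 2 * ‖α 0‖ := fun t => by
      refine (m.norm_le _).trans ?_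
      rw [Met.nr, e1, sq, mul_assoc]
      gcongr
      exact (m.nr_le _).trans (by gcongr; exact norm_snd_le _)
    have e3 := convex_univ.norm_image_sub_le_of_norm_hasDerivWithin_le (C := m.K ^ 2 * ‖α 0‖)
      (fun s _ => (flow_fst (hα s)).hasDerivWithinAt) (fun s _ => by
        rw [Prod.smul_fst, norm_smul, Real.norm_of_nonneg (hl s).1]
        exact (mul_le_of_le_one_left (norm_nonneg _) (hl s).2).trans (e2 s)) (mem_univ 0) (mem_univ t)
    rw [sub_zero, Real.norm_eq_abs] at e3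
    have e4 : ‖(α 0).1‖ ≤ m.K ^ 2 * ‖α 0‖ :=
      (norm_fst_le _).trans (le_mul_of_one_le_left (norm_nonneg _) (one_le_pow₀ hK))
    have e5 := mul_nonneg (abs_nonneg t) ((norm_nonneg _).trans e4)
    exact max_le (by linarith [norm_sub_norm_le (α t).1 (α 0).1]) (by linarith [e2 t])
  refine ⟨⟨m, Φ, h1, h2, fun s t p => ?_, fun a t x v => ?_, fun t p => flow_fst (h3 t p),
    fun t p => ⟨_, flow_snd (h3 t p), h _⟩⟩, rfl⟩
  · exact congrFun (ode_unique_univ hV (α := fun s => Φ (s + t, p)) (fun s => (h3 (s + t) p).comp_add_const s t)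
      (fun s => h3 s _) (by simp [h2])) s
  · refine congrFun (ode_unique_univ hV (fun s => h3 s _) (β := fun t => ((Φ (a * t, (x, v))).1,
      a • (Φ (a * t, (x, v))).2)) (fun s => ?_) (by simp [h2])) t
    have h4 := (h3 (a * s) (x, v)).scomp s ((hasDerivAt_id' s).const_mul a)
    refine ((flow_fst h4).prodMk ((flow_snd h4).const_smul a)).congr_deriv ?_
    simp [hs, smul_smul]

end Crest.Agent.R231.Geo
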