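import Crest.Agent.R231.G.Var

/-! R231, block G: the local inverse of the exponential map. -/

set_option autoImplicit false
set_option maxSynthPendingDepth 3
open Set Filter Topology
open scoped ContDiff RealInnerProductSpace
open Crest.Agent.R241.RG

noncomputable section
namespace Crest.Agent.R231.Geo

variable {n : ℕ} (F : Fl n)

theorem Fl.exp_inv (x : E n) :
    (fderiv ℝ (fun p : E n × E n => (p.1, (F.Φ (1, p)).1)) (x, 0)).IsInvertible := by
  have hs : ContDiff ℝ ∞ fun p : E n × E n => (p.1, (F.Φ (1, p)).1) :=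
    contDiff_fst.prodMk (F.Φ_smooth.comp (contDiff_const.prodMk contDiff_id)).fst
  refine ⟨(LinearEquiv.ofInjectiveEndo (fderiv ℝ (fun p : E n × E n => (p.1, (F.Φ (1, p)).1)) (x, 0) :
    E n × E n →ₗ[ℝ] E n × E n) ((injective_iff_map_eq_zero _).2 fun q hq => ?_)).toContinuousLinearEquiv, rfl⟩
  have h1 := (hs.differentiable (by simp) _).hasFDerivAt.comp_hasDerivAt 0 (g_line ((x, 0) : E n × E n) q)
  rw [zero_smul, add_zero, show fderiv ℝ (fun p : E n × E n => (p.1, (F.Φ (1, p)).1)) (x, 0) q = 0 from hq] at h1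
  have h2 : q.1 = 0 := (flow_fst (g_line ((x, 0) : E n × E n) q)).unique (flow_fst h1)
  have h3 : HasDerivAt (fun s : ℝ => (F.Φ (1, (x, 0) + s • q)).1) q.2 0 := by
    have := F.d1 0 (x, q.2)
    rw [F.Φ_zero] at this
    refine this.congr_of_eventuallyEq (Eventually.of_forall fun s => ?_)
    have e : ((x, 0) : E n × E n) + s • q = (x, s • q.2) := by ext1 <;> simp [h2]
    simp only [e, F.Φ_smul, mul_one]
  exact Prod.ext h2 (h3.unique (flow_snd h1))

theorem exists_lg : ∃ L : Lg n, L.toFl = F := by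
  obtain ⟨f, hf⟩ : ∃ f : E n × E n → E n × E n, f = fun p => (p.1, (F.Φ (1, p)).1) := ⟨_, rfl⟩
  have hs : ContDiff ℝ ∞ f := hf ▸ contDiff_fst.prodMk (F.Φ_smooth.comp (contDiff_const.prodMk contDiff_id)).fst
  have hst : ∀ p, HasStrictFDerivAt f (fderiv ℝ f p) p := fun p => hs.contDiffAt.hasStrictFDerivAt (by simp)
  have hK : IsCompact (Metric.sphere (0 : E n) 1 ×ˢ ({0} : Set (E n))) :=
    (isCompact_sphere _ _).prod isCompact_singleton
  have hinv : ∀ p ∈ Metric.sphere (0 : E n) 1 ×ˢ ({0} : Set (E n)), (fderiv ℝ f p).IsInvertible := by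
    rintro ⟨x, v⟩ ⟨-, rfl⟩
    exact hf ▸ F.exp_inv x
  obtain ⟨T, hT, hinj⟩ := InjOn.exists_mem_nhdsSet (f := f) (fun p hp q hq h => Prod.ext
    (by simpa [hf] using congrArg Prod.fst h) (hp.2.trans hq.2.symm)) hK (fun p _ => hs.continuous.continuousAt)
    fun p hp => by
      obtain ⟨A, hA⟩ := hinv p hp
      have h := hA ▸ hst p
      exact ⟨_, (h.toOpenPartialHomeomorph f).open_source.mem_nhds h.mem_toOpenPartialHomeomorph_source,
        (h.toOpenPartialHomeomorph f).injOn⟩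
  have ho : IsOpen (interior T ∩ {p | (fderiv ℝ f p).IsInvertible}) :=
    isOpen_interior.inter (ContinuousLinearEquiv.isOpen.preimage (hs.continuous_fderiv (by simp)))
  obtain ⟨ε, hε, h1⟩ := hK.exists_thickening_subset_open ho fun p hp =>
    ⟨subset_interior_iff_mem_nhdsSet.2 hT hp, hinv p hp⟩
  have hKp := F.K_pos
  obtain ⟨r, hr, hr1, hr2⟩ : ∃ r, 0 < r ∧ F.K * r ≤ 1 / 4 ∧ F.K * r ≤ ε :=
    ⟨min (1 / 4) ε / F.K, by positivity, by rw [mul_div_cancel₀ _ hKp.ne']; exact min_le_left _ _,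
      by rw [mul_div_cancel₀ _ hKp.ne']; exact min_le_right _ _⟩
  obtain ⟨U, hU⟩ : ∃ U, U = (interior T ∩ {p | (fderiv ℝ f p).IsInvertible}) ∩ {p | F.nr p < r} := ⟨_, rfl⟩
  have hUo : IsOpen U := hU ▸ ho.inter (isOpen_lt F.nr_cont continuous_const)
  have hUi : InjOn f U := hinj.mono fun p hp => interior_subset (hU ▸ hp).1.1
  have hmem : ∀ x v, ‖x‖ = 1 → F.nr (x, v) < r → (x, v) ∈ U := fun x v hx hv => hU ▸ ⟨h1
    (Metric.mem_thickening_iff.2 ⟨(x, 0), ⟨mem_sphere_zero_iff_norm.2 hx, rfl⟩, by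
      simpa [Prod.dist_eq] using ((F.norm_le (x, v)).trans_lt (mul_lt_mul_of_pos_left hv hKp)).trans_le hr2⟩), hv⟩
  let e := OpenPartialHomeomorph.ofContinuousOpenRestrict (hUi.toPartialEquiv f U) hs.continuous.continuousOn
    (isOpenMap_iff_nhds_le.2 fun p => by
      obtain ⟨A, hA⟩ := (hU.subset p.2).1.2
      have h := (hA ▸ hst p).map_nhds_eq_of_equiv
      rw [← hUo.isOpenEmbedding_subtypeVal.map_nhds_eq, Filter.map_map] at h
      exact h.ge) hUo
  have he : ∀ p ∈ e.target, e.symm p ∈ U ∧ f (e.symm p) = p := fun p hp => ⟨e.map_target hp, e.right_inv hp⟩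
  have he' : ∀ p ∈ e.target, (p.1, (e.symm p).2) = e.symm p := fun p hp =>
    Prod.ext (by simpa [hf] using (congrArg Prod.fst (he p hp).2).symm) rfl
  obtain ⟨ε', hε', h2⟩ := ((isCompact_sphere (0 : E n) 1).image (continuous_id.prodMk continuous_id)
    ).exists_thickening_subset_open e.open_target (by
      rintro _ ⟨x, hx, rfl⟩
      have := e.map_source (hmem x 0 (mem_sphere_zero_iff_norm.1 hx) (by simpa [Met.nr, Met.en] using hr))
      rwa [show e (x, 0) = (x, x) by change f _ = _; rw [hf]; simp [F.Φ_rest]] at this)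
  refine ⟨⟨F, r, min ε' (1 / 2), fun p => (e.symm p).2, e.target, hr, hr1, by positivity, min_le_right _ _,
    e.open_target, fun x y hx hxy => h2 (Metric.mem_thickening_iff.2 ⟨(x, x), ⟨x, mem_sphere_zero_iff_norm.2 hx, rfl⟩,
      ?_⟩), fun p hp => ?_, fun p hp => ?_, fun p hp => ?_, fun x v v' hx hv hv' h => ?_⟩, rfl⟩
  · simpa [Prod.dist_eq, dist_eq_norm, norm_sub_rev] using hxy.trans_le (min_le_left _ _)
  · obtain ⟨A, hA⟩ := (hU.subset (he p hp).1).1.2
    exact (e.contDiffAt_symm hp (hA ▸ hst _).hasFDerivAt hs.contDiffAt).snd.contDiffWithinAt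
  · rw [he' p hp]
    exact (hU.subset (he p hp).1).2
  · rw [he' p hp]
    simpa [hf] using congrArg Prod.snd (he p hp).2
  · exact congrArg Prod.snd (hUi (hmem x v hx hv) (hmem x v' hx hv') (by simp [hf, h]))

end Crest.Agent.R231.Geo
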