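import Crest.Agent.R231.G.Clos
import Crest.Agent.R231.G.Flow
import Crest.Agent.R231.G.Log

/-! R231, block G: Riemannian geometry (see notes231/R231.md, section G). -/

set_option autoImplicit false
set_option linter.unusedVariables false
open scoped Manifold ContDiff
open Crest.GeometryTopology.Geodesic

namespace Crest.Agent.R231
open Geo

theorem exists_setup (n : ℕ) (hn : 2 ≤ n)
    (g : Bundle.ContMDiffRiemannianMetric (𝓡 n) ∞ (EuclideanSpace ℝ (Fin n))
      (TangentSpace (𝓡 n) : Metric.sphere (0 : EuclideanSpace ℝ (Fin (n + 1))) 1 → Type))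
    (h : {S : Set (Metric.sphere (0 : EuclideanSpace ℝ (Fin (n + 1))) 1) |
      ∃ γ : ℝ → Metric.sphere (0 : EuclideanSpace ℝ (Fin (n + 1))) 1,
      IsClosedGeodesic (𝓡 n) g γ ∧ (∃ s t, γ s ≠ γ t) ∧ Set.range γ = S}.Finite) : Nonempty (Setup n) := by
  obtain ⟨m, hm⟩ := exists_met g
  obtain ⟨F, rfl⟩ := exists_fl m
  obtain ⟨L, rfl⟩ := exists_lg F
  exact L.setup (h.subset fun T ⟨P, hP, e⟩ => ⟨_, Fl.closed hm hP, Fl.not_const hP.1 hP.2.1, e⟩)

end Crest.Agent.R231
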