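import Crest.Agent.R231.G.Dist

/-! R231, block G: periodic orbits of the geodesic flow. -/

set_option autoImplicit false
set_option maxSynthPendingDepth 3
open Set Filter Topology
open scoped ContDiff RealInnerProductSpace
open Crest.Agent.R241.RG

noncomputable section
namespace Crest.Agent.R231.Geo

variable {n : ℕ}

/-- initial data of non-constant `1`-periodic geodesics on the sphere -/
def Fl.Per (F : Fl n) (P : E n × E n) : Prop := TM P ∧ P.2 ≠ 0 ∧ F.Φ (1, P) = P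

/-- minimal period `1` -/
def Fl.Prime (F : Fl n) (P : E n × E n) : Prop :=
  F.Per P ∧ ∀ s, (∀ t, F.cv P (t + s) = F.cv P t) → ∃ k : ℤ, s = k

namespace Fl
variable {F : Fl n} {P Q : E n × E n}

theorem cv_per {s : ℝ} (h : F.Φ (s, P) = P) : Function.Periodic (F.cv P) s := fun t => by rw [cv, F.Φ_add, h, cv]

theorem cv_smul (a t : ℝ) : F.cv (P.1, a • P.2) t = F.cv P (a * t) := by rw [cv, F.Φ_smul, cv]

theorem fix_of_per (hP : TM P) {s : ℝ} (h : ∀ t, F.cv P (t + s) = F.cv P t) : F.Φ (s, P) = P := by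
  have h1 := (F.cv_deriv hP (0 + s)).comp_add_const 0 s
  simp only [h] at h1
  have h2 := h1.unique (F.cv_deriv hP 0)
  have h3 := congrArg Subtype.val (h 0)
  rw [F.cv_coe hP, F.cv_coe hP] at h3
  rw [zero_add, F.Φ_zero] at h2 h3
  exact Prod.ext h3 h2

theorem not_const (hP : TM P) (h0 : P.2 ≠ 0) : ∃ s t, F.cv P s ≠ F.cv P t := by
  by_contra! h
  have h1 := F.cv_deriv hP 0
  simp only [h _ 0, F.Φ_zero] at h1
  exact h0 (h1.unique (hasDerivAt_const _ _))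

theorem not_rev (hP : TM P) (h0 : P.2 ≠ 0) (s : ℝ) : ¬ ∀ t, F.cv P (s - t) = F.cv P t := fun h => by
  have h1 := (F.cv_deriv hP (s - s / 2)).comp_const_sub s (s / 2)
  simp only [h] at h1
  have h2 := h1.unique (F.cv_deriv hP (s / 2))
  rw [show s - s / 2 = s / 2 by ring, neg_eq_iff_add_eq_zero, ← two_smul ℝ, smul_eq_zero] at h2
  exact h2.elim two_ne_zero (F.vel_ne h0 _)

theorem exists_prime (hP : F.Per P) : ∃ Q, F.Prime Q ∧ range (F.cv Q) = range (F.cv P) := by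
  let S : AddSubgroup ℝ :=
    { carrier := {s | F.Φ (s, P) = P}
      zero_mem' := F.Φ_zero P
      add_mem' := fun {a b} ha hb => by rw [mem_ofPred_eq, F.Φ_add, hb, ha]
      neg_mem' := fun {a} ha => by
        have := F.Φ_add (-a) a P
        rw [neg_add_cancel, F.Φ_zero, ha] at this
        exact this.symm }
  have hc : IsClosed (S : Set ℝ) := isClosed_eq (F.cont P) continuous_const
  rcases S.dense_or_cyclic with h | ⟨a, ha⟩
  · obtain ⟨s, t, hst⟩ := not_const (F := F) hP.1 hP.2.1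
    have : ∀ s, F.Φ (s, P) = P := fun s => hc.closure_eq.subset (h s)
    exact absurd (by rw [cv, cv, this, this]) hst
  have h1 : ∀ s, F.Φ (s, P) = P ↔ ∃ k : ℤ, k • a = s := fun s => by
    rw [← AddSubgroup.mem_closure_singleton, ← ha]
    rfl
  have ha0 : a ≠ 0 := by
    rintro rfl
    simpa using (h1 1).1 hP.2.2
  refine ⟨(P.1, a • P.2), ⟨⟨⟨hP.1.1, by rw [inner_smul_right, hP.1.2, mul_zero]⟩, smul_ne_zero ha0 hP.2.1, ?_⟩,
    fun s hs => ?_⟩, ?_⟩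
  · rw [F.Φ_smul, mul_one, (h1 a).2 ⟨1, one_smul _ _⟩]
  · obtain ⟨k, hk⟩ := (h1 (a * s)).1 (fix_of_per hP.1 fun u => by
      have := hs (u / a)
      rwa [cv_smul, cv_smul, mul_add, mul_div_cancel₀ _ ha0] at this)
    exact ⟨k, mul_left_cancel₀ ha0 (by rw [← hk, zsmul_eq_mul, mul_comm])⟩
  · rw [show F.cv (P.1, a • P.2) = F.cv P ∘ (a * ·) from funext (cv_smul a),
      (mul_left_surjective₀ ha0).range_comp]

end Fl

namespace Lg
variable {L : Lg n} {P Q : E n × E n}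

theorem short (hP : P.2 ≠ 0) : ∃ η, 0 < η ∧ ∀ d, d < η → L.nr P * d < L.δ :=
  ⟨L.δ / L.nr P, div_pos L.δ_pos (L.nr_pos hP), fun _ hd => (lt_div_iff₀' (L.nr_pos hP)).1 hd⟩

theorem same_range (hP : L.Per P) (hQ : L.Prime Q) (h : range (L.cv P) = range (L.cv Q)) :
    ∃ (m : ℕ) (b : Bool) (s : ℝ), 0 < m ∧ (∀ t, L.cv P t = L.cv Q (sg b * m * t + s)) ∧ L.nr P = m * L.nr Q := by
  obtain ⟨η, hη, h1⟩ := short (L := L) hP.2.1
  obtain ⟨η', hη', h2⟩ := short (L := L) hQ.1.2.1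
  have h3 : ∀ t, ∃ u ∈ Ico (0 : ℝ) 1, L.cv P t = L.cv Q u := fun t => by
    obtain ⟨u, hu⟩ := h.subset (mem_range_self t)
    exact hu ▸ (Fl.cv_per hQ.1.2.2).exists_mem_Ico₀ one_pos u
  choose u hu hu' using h3
  obtain ⟨t₁, ht₁, t₂, ht₂, hne, he⟩ := (Ioo_infinite hη).exists_ne_map_eq_of_mapsTo (f := fun t => ⌊u t / η'⌋)
    (t := Icc 0 ⌊1 / η'⌋) (fun t _ => ⟨Int.floor_nonneg.2 (div_nonneg (hu t).1 hη'.le),
      Int.floor_le_floor (div_le_div_of_nonneg_right (hu t).2.le hη'.le)⟩) (finite_Icc _ _)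
  have h4 := Int.abs_sub_lt_one_of_floor_eq_floor he
  rw [← sub_div, abs_div, abs_of_pos hη', div_lt_one hη'] at h4
  have h5 := (geo_loc hP.1 (h1 _ (abs_sub_lt_iff.2 ⟨by linarith [ht₁.2, ht₂.1], by linarith [ht₁.1, ht₂.2]⟩ :
    |t₁ - t₂| < η))).2
  rw [hu', hu', (geo_loc hQ.1.1 (h2 _ h4)).2] at h5
  have hd : t₂ - t₁ ≠ 0 := sub_ne_zero.2 hne.symm
  obtain ⟨a, h6⟩ : ∃ a : ℝ, L.Φ (t₁, P) = ((L.Φ (u t₁, Q)).1, a • (L.Φ (u t₁, Q)).2) :=
    ⟨(t₂ - t₁)⁻¹ * (u t₂ - u t₁), Prod.ext (congrArg Prod.fst h5).symm (by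
      rw [mul_smul, show (u t₂ - u t₁) • _ = _ from congrArg Prod.snd h5, inv_smul_smul₀ hd])⟩
  have ha : a ≠ 0 := by
    rintro rfl
    exact L.vel_ne hP.2.1 t₁ (by rw [h6, zero_smul])
  have h7 : ∀ t, L.cv P t = L.cv Q (a * t + (u t₁ - a * t₁)) := fun t => by
    rw [show a * t + (u t₁ - a * t₁) = a * (t - t₁) + u t₁ by ring, Fl.cv, Fl.cv, L.Φ_add, ← sub_add_cancel t t₁,
      L.Φ_add, h6, L.Φ_smul, add_sub_cancel_right]
  obtain ⟨k, rfl⟩ := hQ.2 a fun t => by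
    have := Fl.cv_per hP.2.2 ((t - (u t₁ - a * t₁)) / a)
    rwa [h7, h7, mul_add, mul_div_cancel₀ _ ha, mul_one, add_right_comm, sub_add_cancel] at this
  refine ⟨k.natAbs, decide (0 < k), u t₁ - k * t₁, Int.natAbs_pos.2 (by exact_mod_cast ha), fun t => ?_, ?_⟩
  · rw [h7, Nat.cast_natAbs, sg]
    by_cases hk : 0 < k
    · simp [hk, abs_of_pos hk]
    · simp [hk, abs_of_nonpos (not_lt.1 hk)]
  · rw [← L.nr_flow t₁, h6, L.nr_smul, Prod.mk.eta, L.nr_flow, Nat.cast_natAbs, Int.cast_abs]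

theorem crit {S : E n × E n → ℝ} (hS : ContDiff ℝ ∞ S)
    (hS' : ∀ x y : M n, L.ρ x y < L.δ → S =ᶠ[𝓝 ((x : E n), (y : E n))] fun p => L.en (L.ip p))
    (N : ℕ) [NeZero N] (x : ZMod N → M n) (hx : ∀ k, L.ρ (x k) (x (k + 1)) < L.δ)
    (H : ∀ k (w : E n), ⟪w, (x k : E n)⟫ = 0 →
      fderiv ℝ S (x (k - 1), x k) (0, w) + fderiv ℝ S (x k, x (k + 1)) (w, 0) = 0) :
    (∀ k, x k = x 0) ∨ ∃ P, L.Per P ∧ (∀ z : ℤ, x (z : ZMod N) = L.cv P (z / N)) ∧
      ∀ k, L.ρ (x k) (x (k + 1)) = L.nr P / N := by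
  obtain ⟨p, hp⟩ : ∃ p : ZMod N → E n × E n, p = fun k => L.ip (x k, x (k + 1)) := ⟨_, rfl⟩
  have hT : ∀ k, TM (p k) := fun k => hp ▸ tm_ip (ρ_lt (hx k)).1
  have h1 : ∀ k, L.Φ (1, p k) = p (k + 1) := fun k => by
    have e1 : (L.Φ (1, p k)).1 = x (k + 1) := hp ▸ L.exp_lg _ (ρ_lt (hx k)).1
    have e2 : (p (k + 1)).1 = x (k + 1) := by rw [hp]; rfl
    refine Prod.ext (e1.trans e2.symm) (sub_eq_zero.1 (L.eq_zero (x := x (k + 1)) ?_))
    have h2 := H (k + 1) ((L.Φ (1, p k)).2 - (p (k + 1)).2) (by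
      rw [real_inner_comm, inner_sub_right, sub_eq_zero]
      exact (e1 ▸ (L.tm (hT k) 1).2).trans (e2 ▸ (hT (k + 1)).2).symm)
    rw [add_sub_cancel_right, fderiv_S hS (ρ_lt (hx k)).1 (hS' _ _ (hx k)),
      fderiv_S hS (ρ_lt (hx _)).1 (hS' _ _ (hx _))] at h2
    simp only [map_zero, mul_zero, sub_zero, zero_sub] at h2
    rw [map_sub, L.symm _ _ (L.Φ (1, p k)).2, L.symm _ _ (p (k + 1)).2]
    subst hp
    simp only [ip] at h2 ⊢
    linarith
  have h2 : ∀ z : ℤ, L.Φ (z, p 0) = p z := fun z => by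
    induction z with
    | zero => simp [L.Φ_zero]
    | succ i ih => rw [Int.cast_add, Int.cast_one, add_comm, L.Φ_add, ih, h1, Int.cast_add, Int.cast_one]
    | pred i ih =>
      have := h1 ((-(i : ℤ) - 1 : ℤ) : ZMod N)
      rw [Int.cast_sub, Int.cast_one, sub_add_cancel, ← ih] at this
      rw [Int.cast_sub, Int.cast_one, sub_eq_neg_add, L.Φ_add, ← this, ← L.Φ_add, neg_add_cancel, L.Φ_zero,
        Int.cast_sub, Int.cast_one]
  have h3 : ∀ z : ℤ, x z = L.cv (p 0) z := fun z => by rw [Fl.cv, h2, hp]; exact (toM_val _).symm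
  have hN : (N : ℝ) ≠ 0 := Nat.cast_ne_zero.2 (NeZero.ne N)
  by_cases h0 : (p 0).2 = 0
  · refine Or.inl fun k => ?_
    obtain ⟨z, rfl⟩ := ZMod.intCast_surjective k
    rw [h3, Fl.cv, ← Prod.mk.eta (p := p 0), h0, L.Φ_rest, hp]
    exact toM_val _
  refine Or.inr ⟨((p 0).1, (N : ℝ) • (p 0).2), ⟨⟨(hT 0).1, by rw [inner_smul_right, (hT 0).2, mul_zero]⟩,
    smul_ne_zero hN h0, ?_⟩, fun z => ?_, fun k => ?_⟩
  · have := h2 N
    rw [Int.cast_natCast, Int.cast_natCast, ZMod.natCast_self] at this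
    rw [L.Φ_smul, mul_one, this]
  · rw [Fl.cv_smul, mul_div_cancel₀ _ hN, h3]
  · obtain ⟨z, rfl⟩ := ZMod.intCast_surjective k
    rw [L.nr_smul, Prod.mk.eta, Nat.abs_cast, mul_div_cancel_left₀ _ hN, ← L.nr_flow z, h2, (ρ_lt (hx _)).2, hp]

/-- the set-up from the finiteness of the set of images -/
theorem setup (L : Lg n) (h : {T | ∃ P, L.Per P ∧ range (L.cv P) = T}.Finite) : Nonempty (Setup n) := by
  obtain ⟨S, hS, hS'⟩ := L.exists_S
  have h1 : ∀ T : {T | ∃ P, L.Per P ∧ range (L.cv P) = T}, ∃ Q, L.Prime Q ∧ range (L.cv Q) = T := fun ⟨T, P, hP, e⟩ =>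
    (Fl.exists_prime hP).imp fun _ h => ⟨h.1, h.2.trans e⟩
  choose Q hQ hQ' using h1
  have := L.δ_pos
  have := L.e0_pos
  exact ⟨{
    ρ := L.ρ, δ := L.δ, cL := L.K + L.δ / L.e0 + 2 / L.δ, δ_pos := L.δ_pos
    one_le_cL := by rw [add_assoc]; exact le_add_of_le_of_nonneg L.one_le (by positivity)
    ρ_le := ρ_le, dist_le := dist_le, ρ_comm := ρ_comm, ρ_tri := ρ_tri, gs := L.gs
    gv := fun x y t => (L.Φ (t, L.ip (x, y))).2
    gs_cont := gs_cont, gv_cont := gv_cont.snd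
    gs_deriv := fun x y t h => L.cv_deriv (tm_ip (ρ_lt h).1) t
    gs_zero := fun x y _ => gs_zero x y
    gs_one := fun x y h => gs_one h
    gs_symm := fun x y t h => gs_symm h t
    ρ_gs := fun x y s t h hs ht => (gs_loc h (abs_le.2 ⟨by linarith [hs.1, ht.2], by linarith [hs.2, ht.1]⟩)).1
    S := S, S_smooth := hS
    S_eq := fun x y h => by rw [(hS' x y h).self_of_nhds, (ρ_lt h).2, L.nr_sq]
    S_mixed := fun x y h v hv H => S_mixed hS (ρ_lt h).1 (hS' x y h) hv H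
    ι := {T | ∃ P, L.Per P ∧ range (L.cv P) = T}
    fin := h.fintype
    c := fun i => L.cv (Q i)
    c' := fun i t => (L.Φ (t, Q i)).2
    ℓ := fun i => L.nr (Q i)
    ℓ_pos := fun i => L.nr_pos (hQ i).1.2.1
    c_per := fun i => Fl.cv_per (hQ i).1.2.2
    c_deriv := fun i => L.cv_deriv (hQ i).1.1
    c'_cont := fun i => (L.cont _).snd
    c'_ne := fun i => L.vel_ne (hQ i).1.2.1
    c_loc := fun i s t h => cv_loc (hQ i).1.1 h
    c_prime := fun i => (hQ i).2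
    c_range := fun i j h => Subtype.ext ((hQ' i).symm.trans (h.trans (hQ' j)))
    c_rev := fun i => Fl.not_rev (hQ i).1.1 (hQ i).1.2.1
    crit := fun N _ x hx H => (crit hS hS' N x hx H).imp_right fun ⟨P, hP, h1, h2⟩ => by
      obtain ⟨m, b, s, hm, h3, h4⟩ := same_range hP (hQ ⟨_, P, hP, rfl⟩) (hQ' ⟨_, P, hP, rfl⟩).symm
      exact ⟨_, m, b, s, hm, fun z => (h1 z).trans (h3 _), fun k => by rw [h2, h4]⟩ }⟩

end Lg
end Crest.Agent.R231.Geo
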