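import Crest.Agent.R231.G.Defs

/-! R231, block G: conservation laws, invariance of the sphere, first variation. -/

set_option autoImplicit false
set_option maxSynthPendingDepth 3
open Set Filter Topology
open scoped ContDiff RealInnerProductSpace
open Crest.Agent.R241.RG

noncomputable section
namespace Crest.Agent.R231.Geo

variable {n : ℕ}

theorem g_const {f : ℝ → ℝ} {c : ℝ} (h : ∀ t ∈ Icc (0 : ℝ) 1, HasDerivAt f c t) {t : ℝ} (ht : t ∈ Icc (0 : ℝ) 1) :
    f t = f 0 + c * t := by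
  have := constant_of_has_deriv_right_zero (f := fun t => f t - c * t) (a := 0) (b := 1)
    (fun s hs => ((h s hs).sub ((hasDerivAt_id' s).const_mul c)).continuousAt.continuousWithinAt)
    (fun s hs => (((h s (Ico_subset_Icc_self hs)).sub ((hasDerivAt_id' s).const_mul c)).congr_deriv
      (by ring)).hasDerivWithinAt) t ht
  linarith

theorem g_line {X : Type} [NormedAddCommGroup X] [NormedSpace ℝ X] (z q : X) :
    HasDerivAt (fun s : ℝ => z + s • q) q 0 := by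
  simpa using ((hasDerivAt_id' (0 : ℝ)).smul_const q).const_add z

theorem Met.en_deriv (m : Met n) {p : ℝ → E n × E n} {q : E n × E n} {t : ℝ} (hp : HasDerivAt p q t) :
    HasDerivAt (fun s => m.en (p s))
      (fderiv ℝ m.G (p t).1 q.1 (p t).2 (p t).2 + 2 * m.G (p t).1 (p t).2 q.2) t :=
  (m.dG (flow_fst hp) (flow_snd hp) (flow_snd hp)).congr_deriv (by rw [m.symm _ q.2]; ring)

namespace Fl
variable (F : Fl n)

theorem var (p : E n × E n) {J : ℝ → E n} {J' : E n} {t : ℝ} (hJ : HasDerivAt J J' t) :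
    HasDerivAt (fun s => F.G (F.Φ (s, p)).1 (F.Φ (s, p)).2 (J s)) (F.G (F.Φ (t, p)).1 (F.Φ (t, p)).2 J' +
      1 / 2 * fderiv ℝ F.G (F.Φ (t, p)).1 (J t) (F.Φ (t, p)).2 (F.Φ (t, p)).2) t := by
  obtain ⟨a, h1, h2⟩ := F.d2 t p
  exact (F.dG (F.d1 t p) h1 hJ).congr_deriv (by rw [h2]; ring)

theorem en_flow (t : ℝ) (p : E n × E n) : F.en (F.Φ (t, p)) = F.en p := by
  have hd : ∀ s, HasDerivAt (fun s => F.en (F.Φ (s, p))) 0 s := fun s => by
    obtain ⟨a, h1, h2⟩ := F.d2 s p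
    exact (F.var p h1).congr_deriv (by rw [F.symm _ _ a, h2]; ring)
  rw [is_const_of_deriv_eq_zero (fun s => (hd s).differentiableAt) (fun s => (hd s).deriv) t 0, F.Φ_zero]

theorem nr_flow (t : ℝ) (p : E n × E n) : F.nr (F.Φ (t, p)) = F.nr p := congrArg Real.sqrt (F.en_flow t p)

theorem disp (t : ℝ) (p : E n × E n) : ‖(F.Φ (t, p)).1 - p.1‖ ≤ F.K * F.nr p * |t| := by
  have := convex_univ.norm_image_sub_le_of_norm_hasDerivWithin_le (C := F.K * F.nr p)
    (fun s _ => (F.d1 s p).hasDerivWithinAt) (fun s _ => (F.norm_le _).trans_eq (by rw [F.nr_flow]))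
    (mem_univ 0) (mem_univ t)
  rwa [F.Φ_zero, sub_zero] at this

theorem Φ_rest (t : ℝ) (x : E n) : F.Φ (t, (x, 0)) = (x, 0) := by
  simpa [F.Φ_zero] using F.Φ_smul 0 t x 0

theorem cont (p : E n × E n) : Continuous fun t => F.Φ (t, p) :=
  F.Φ_smooth.continuous.comp (Continuous.prodMk_left p)

theorem vel_ne {p : E n × E n} (hp : p.2 ≠ 0) (t : ℝ) : (F.Φ (t, p)).2 ≠ 0 := fun h => hp (F.eq_zero (x := p.1) (by
  have := F.en_flow t p
  rw [Met.en, h, map_zero] at this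
  exact this.symm))

theorem nr_pos {p : E n × E n} (hp : p.2 ≠ 0) : 0 < F.nr p :=
  (mul_pos_iff_of_pos_left F.K_pos).1 ((norm_pos_iff.2 hp).trans_le (F.norm_le p))

/-- the radial momentum is conserved in the annulus -/
theorem rad_deriv (p : E n × E n) {t : ℝ} (h1 : 1 / 2 < ‖(F.Φ (t, p)).1‖) (h2 : ‖(F.Φ (t, p)).1‖ < 2) :
    HasDerivAt (fun s => F.G (F.Φ (s, p)).1 (F.Φ (s, p)).2 (F.Φ (s, p)).1) 0 t :=
  (F.var p (F.d1 t p)).congr_deriv (by rw [F.euler _ _ h1 h2]; ring)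

theorem sq_deriv (p : E n × E n) (t : ℝ) :
    HasDerivAt (fun s => ‖(F.Φ (s, p)).1‖ ^ 2) (2 * ⟪(F.Φ (t, p)).1, (F.Φ (t, p)).2⟫) t := (F.d1 t p).norm_sq

theorem tm {p : E n × E n} (hp : TM p) (t : ℝ) : TM (F.Φ (t, p)) := by
  have hc := F.cont p
  have : IsClopen {t | TM (F.Φ (t, p))} := by
    refine ⟨(isClosed_eq (by fun_prop) continuous_const).inter (isClosed_eq (by fun_prop) continuous_const),
      isOpen_iff_mem_nhds.2 fun t ht => ?_⟩
    have h0 : ∀ᶠ s in 𝓝 t, 1 / 2 < ‖(F.Φ (s, p)).1‖ ∧ ‖(F.Φ (s, p)).1‖ < 2 :=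
      (continuousAt_const.eventually_lt hc.fst.norm.continuousAt (by rw [ht.1]; norm_num)).and
        (hc.fst.norm.continuousAt.eventually_lt continuousAt_const (by rw [ht.1]; norm_num))
    obtain ⟨ε, hε, h1⟩ := Metric.eventually_nhds_iff_ball.1 h0
    have key : ∀ {f : ℝ → ℝ}, (∀ s ∈ Metric.ball t ε, HasDerivAt f 0 s) → ∀ s ∈ Metric.ball t ε, f s = f t :=
      fun h s hs => Metric.isOpen_ball.is_const_of_deriv_eq_zero (convex_ball t ε).isPreconnected
        (fun s hs => (h s hs).differentiableAt.differentiableWithinAt) (fun s hs => (h s hs).deriv) hs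
        (Metric.mem_ball_self hε)
    have h2 : ∀ s ∈ Metric.ball t ε, ⟪(F.Φ (s, p)).1, (F.Φ (s, p)).2⟫ = 0 := fun s hs => by
      have := key (fun s hs => F.rad_deriv p (h1 s hs).1 (h1 s hs).2) s hs
      rw [F.symm, F.symm _ (F.Φ (t, p)).2, F.rad _ _ (h1 s hs).1 (h1 s hs).2, F.rad _ _ h0.self_of_nhds.1
        h0.self_of_nhds.2, ht.2, zero_div, div_eq_zero_iff] at this
      exact this.resolve_right (by have := (h1 s hs).1; positivity)
    refine mem_of_superset (Metric.ball_mem_nhds t hε) fun s hs => ⟨?_, h2 s hs⟩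
    have := key (fun s hs => (F.sq_deriv p s).congr_deriv (by rw [h2 s hs, mul_zero])) s hs
    rw [ht.1] at this
    exact (pow_left_inj₀ (norm_nonneg _) zero_le_one two_ne_zero).1 this
  exact (this.eq_univ ⟨0, by rwa [mem_ofPred_eq, F.Φ_zero]⟩).symm.subset (mem_univ t)

theorem log_norm {x v : E n} (hx : ‖x‖ = 1) (hv : F.K * F.nr (x, v) ≤ 1 / 4) :
    Real.log (‖(F.Φ (1, (x, v))).1‖ ^ 2) = 2 * ⟪x, v⟫ := by
  have h1 : ∀ t ∈ Icc (0 : ℝ) 1, 1 / 2 < ‖(F.Φ (t, (x, v))).1‖ ∧ ‖(F.Φ (t, (x, v))).1‖ < 2 := fun t ht => by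
    have h2 := (F.disp t (x, v)).trans (mul_le_mul hv (abs_le.2 ⟨by linarith [ht.1], ht.2⟩) (abs_nonneg _) (by norm_num))
    have h3 := abs_le.1 ((abs_norm_sub_norm_le _ _).trans h2)
    rw [hx] at h3
    constructor <;> linarith [h3.1, h3.2]
  have h2 : ∀ t ∈ Icc (0 : ℝ) 1, ⟪(F.Φ (t, (x, v))).1, (F.Φ (t, (x, v))).2⟫ / ‖(F.Φ (t, (x, v))).1‖ ^ 2 = ⟪x, v⟫ :=
    fun t ht => by
    have := g_const (fun t ht => F.rad_deriv (x, v) (h1 t ht).1 (h1 t ht).2) ht
    rwa [zero_mul, add_zero, F.Φ_zero, F.symm, F.symm _ v, F.rad _ _ (h1 t ht).1 (h1 t ht).2,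
      F.rad x _ (by rw [hx]; norm_num) (by rw [hx]; norm_num), hx, one_pow, div_one] at this
  have := g_const (c := 2 * ⟪x, v⟫) (fun t ht => ((F.sq_deriv (x, v) t).log
    (by have := (h1 t ht).1; positivity)).congr_deriv (by rw [mul_div_assoc, h2 t ht])) (t := 1) (by simp)
  simpa [F.Φ_zero, hx] using this

theorem hasF (z : ℝ × (E n × E n)) : HasFDerivAt F.Φ (fderiv ℝ F.Φ z) z :=
  (F.Φ_smooth.differentiable (by simp) z).hasFDerivAt

theorem d_par {p : ℝ → E n × E n} {q : E n × E n} {s : ℝ} (hp : HasDerivAt p q s) (t : ℝ) :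
    HasDerivAt (fun s => F.Φ (t, p s)) (fderiv ℝ F.Φ (t, p s) (0, q)) s :=
  (F.hasF _).comp_hasDerivAt s ((hasDerivAt_const s t).prodMk hp)

theorem jac (p q : E n × E n) (t : ℝ) :
    HasDerivAt (fun t => (fderiv ℝ F.Φ (t, p) (0, q)).1) (fderiv ℝ F.Φ (t, p) (0, q)).2 t := by
  have hD : ∀ z, HasFDerivAt (fderiv ℝ F.Φ) (fderiv ℝ (fderiv ℝ F.Φ) z) z := fun z =>
    ((F.Φ_smooth.fderiv_right (m := ∞) le_rfl).differentiable (by simp) z).hasFDerivAt
  have h1 : ∀ z : ℝ × (E n × E n), (fderiv ℝ F.Φ z (1, 0)).1 = (F.Φ z).2 := fun z =>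
    (flow_fst ((F.hasF (z.1, z.2)).comp_hasDerivAt z.1 ((hasDerivAt_id' z.1).prodMk
      (hasDerivAt_const z.1 z.2)))).unique (F.d1 z.1 z.2)
  have h2 := flow_fst ((HasFDerivAt.comp_hasDerivAt (f := fun t => (t, p)) t (hD _) ((hasDerivAt_id' t).prodMk
    (hasDerivAt_const t p))).clm_apply (hasDerivAt_const t ((0 : ℝ), q)))
  have h3 := flow_fst ((HasFDerivAt.comp_hasDerivAt (f := fun s : ℝ => (t, p + s • q)) 0 (hD _)
    ((hasDerivAt_const 0 t).prodMk (g_line p q))).clm_apply (hasDerivAt_const 0 ((1 : ℝ), (0 : E n × E n))))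
  simp only [Function.comp, h1] at h3
  have h4 := h3.unique (flow_snd (F.d_par (g_line p q) t))
  simp only [zero_smul, add_zero, map_zero] at h2 h4
  rw [← h4, F.Φ_smooth.contDiffAt.isSymmSndFDerivAt (by rw [minSmoothness_of_isRCLikeNormedField]; exact WithTop.coe_le_coe.2 le_top)]
  exact h2

/-- first variation of the energy (Gauss lemma) -/
theorem gauss {p : ℝ → E n × E n} {q : E n × E n} {c : E n} {s : ℝ} (hp : HasDerivAt p q s)
    (hc : HasDerivAt (fun s => (F.Φ (1, p s)).1) c s) : HasDerivAt (fun s => F.en (p s))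
      (2 * F.G (F.Φ (1, p s)).1 (F.Φ (1, p s)).2 c - 2 * F.G (p s).1 (p s).2 q.1) s := by
  have h0 := F.en_deriv hp
  have h1 : ∀ t, _ = _ := fun t => (F.en_deriv (F.d_par hp t)).unique (by simpa only [F.en_flow] using h0)
  have h2 : fderiv ℝ F.Φ (0, p s) (0, q) = q := (F.d_par hp 0).unique (by simpa only [F.Φ_zero] using hp)
  have h3 := g_const (c := 1 / 2 * (fderiv ℝ F.G (p s).1 q.1 (p s).2 (p s).2 + 2 * F.G (p s).1 (p s).2 q.2))
    (fun t _ => (F.var (p s) (F.jac (p s) q t)).congr_deriv (by rw [← h1 t]; ring)) (t := 1) (by simp)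
  rw [h2, F.Φ_zero, (flow_fst (F.d_par hp 1)).unique hc] at h3
  exact h0.congr_deriv (by rw [h3]; ring)

end Fl
end Crest.Agent.R231.Geo
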